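import Mathlib

/-!
# Small-bias averaging on `Fin m → ZMod Q` (BPL sampler, block D)

`bv m (x,y) = (y x^k)_k`.  The averaging operator `avg f u = E_e f(u + b_e)` satisfies
`∑ (avg f - mean f)^2 ≤ (m/Q)^2 ∑ (f - mean f)^2`.
-/

namespace P313.H931

open Finset ZMod

/-- the small-bias vectors -/
def bv {Q : ℕ} (m : ℕ) (e : ZMod Q × ZMod Q) : Fin m → ZMod Q := fun k => e.2 * e.1 ^ (k : ℕ)

/-- normalised mean -/
noncomputable def mean {α : Type*} [Fintype α] (f : α → ℝ) : ℝ := (∑ u, f u) / Fintype.card α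

section Fourier

variable {Q : ℕ} [Fact Q.Prime] {m : ℕ}

/-- Fourier coefficient -/
noncomputable def ft (f : (Fin m → ZMod Q) → ℝ) (α : Fin m → ZMod Q) : ℂ :=
  ∑ u, (f u : ℂ) * stdAddChar (∑ k, α k * u k)

/-- the pairing as an additive hom in the first variable -/
def pairHom (w : Fin m → ZMod Q) : (Fin m → ZMod Q) →+ ZMod Q where
  toFun α := ∑ k, α k * w k
  map_zero' := by simp
  map_add' α β := by simp [add_mul, Finset.sum_add_distrib]

lemma sum_char (w : Fin m → ZMod Q) :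
    ∑ α : Fin m → ZMod Q, (stdAddChar (∑ k, α k * w k) : ℂ) = if w = 0 then (Q : ℂ) ^ m else 0 := by
  classical
  split_ifs with h
  · subst h
    simp [ZMod.card]
  · have hex : ∃ k, w k ≠ 0 := by
      by_contra hcon
      push Not at hcon
      exact h (funext hcon)
    obtain ⟨k, hk⟩ := hex
    let ψ : AddChar (Fin m → ZMod Q) ℂ :=
      (stdAddChar : AddChar (ZMod Q) ℂ).compAddMonoidHom (pairHom w)
    have hne : ψ ≠ 0 := by
      intro h0
      have h1 : ψ (Pi.single k (w k)⁻¹) = 1 := by rw [h0]; rfl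
      have h2 : ψ (Pi.single k (w k)⁻¹) = (stdAddChar (1 : ZMod Q) : ℂ) := by
        show (stdAddChar (pairHom w (Pi.single k (w k)⁻¹)) : ℂ) = _
        congr 1
        show ∑ j, (Pi.single k (w k)⁻¹ : Fin m → ZMod Q) j * w j = 1
        rw [Finset.sum_eq_single k]
        · simp [inv_mul_cancel₀ hk]
        · intro b _ hb
          simp [hb]
        · simp
      rw [h2] at h1
      have h3 : (stdAddChar (1 : ZMod Q) : ℂ) = stdAddChar (0 : ZMod Q) := by
        rw [h1]; simp
      exact one_ne_zero (injective_stdAddChar h3)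
    have := (AddChar.sum_eq_zero_iff_ne_zero (ψ := ψ)).2 hne
    exact this

lemma conj_char (x : ZMod Q) :
    (starRingEnd ℂ) (stdAddChar x : ℂ) = stdAddChar (-x) :=
  (AddChar.map_neg_eq_conj _ _).symm

lemma parseval (f : (Fin m → ZMod Q) → ℝ) :
    ∑ α, ‖ft f α‖ ^ 2 = (Q : ℝ) ^ m * ∑ u, f u ^ 2 := by
  classical
  have h : (∑ α, (‖ft f α‖ ^ 2 : ℝ) : ℂ) = ((Q : ℝ) ^ m * ∑ u, f u ^ 2 : ℝ) := by
    have h1 : ∀ α, ((‖ft f α‖ ^ 2 : ℝ) : ℂ) =
        ∑ u, ∑ v, (f u : ℂ) * f v * stdAddChar (∑ k, α k * (u - v) k) := by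
      intro α
      rw [← Complex.normSq_eq_norm_sq, ← Complex.mul_conj]
      unfold ft
      rw [map_sum, Finset.sum_mul_sum]
      refine Finset.sum_congr rfl fun u _ => Finset.sum_congr rfl fun v _ => ?_
      rw [map_mul, conj_char, Complex.conj_ofReal]
      have : (∑ k, α k * (u - v) k) = (∑ k, α k * u k) + -(∑ k, α k * v k) := by
        rw [← sub_eq_add_neg, ← Finset.sum_sub_distrib]
        refine Finset.sum_congr rfl fun k _ => ?_
        rw [Pi.sub_apply, mul_sub]
      rw [this, AddChar.map_add_eq_mul]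
      ring
    simp_rw [h1]
    rw [Finset.sum_comm]
    push_cast
    rw [Finset.mul_sum]
    refine Finset.sum_congr rfl fun u _ => ?_
    rw [Finset.sum_comm]
    have h2 : ∀ v, ∑ α : Fin m → ZMod Q, (f u : ℂ) * f v * stdAddChar (∑ k, α k * (u - v) k)
        = if v = u then (Q : ℂ) ^ m * (f u) ^ 2 else 0 := by
      intro v
      rw [← Finset.mul_sum, sum_char]
      by_cases huv : v = u
      · subst huv
        simp; ring
      · have : u - v ≠ 0 := fun h => huv (sub_eq_zero.1 h).symm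
        simp [huv, this]
    simp_rw [h2]
    simp
  have h' : ((∑ α, ‖ft f α‖ ^ 2 : ℝ) : ℂ) = ((Q : ℝ) ^ m * ∑ u, f u ^ 2 : ℝ) := by
    rw [← h]; push_cast; rfl
  exact_mod_cast h'

/-- the averaging operator -/
noncomputable def avg (f : (Fin m → ZMod Q) → ℝ) (u : Fin m → ZMod Q) : ℝ :=
  (∑ e : ZMod Q × ZMod Q, f (u + bv m e)) / (Q : ℝ) ^ 2

/-- multiplier -/
noncomputable def mult (α : Fin m → ZMod Q) : ℂ :=
  (∑ e : ZMod Q × ZMod Q, (stdAddChar (-(∑ k, α k * bv m e k)) : ℂ)) / (Q : ℂ) ^ 2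

lemma ft_avg (f : (Fin m → ZMod Q) → ℝ) (α : Fin m → ZMod Q) :
    ft (avg f) α = ft f α * mult α := by
  unfold ft avg mult
  have h1 : ∀ u : Fin m → ZMod Q,
      (((∑ e : ZMod Q × ZMod Q, f (u + bv m e)) / (Q : ℝ) ^ 2 : ℝ) : ℂ) *
        stdAddChar (∑ k, α k * u k) =
      (∑ e : ZMod Q × ZMod Q, (f (u + bv m e) : ℂ) * stdAddChar (∑ k, α k * (u + bv m e) k) *
        stdAddChar (-(∑ k, α k * bv m e k))) / (Q : ℂ) ^ 2 := by
    intro u
    push_cast
    rw [div_mul_eq_mul_div, Finset.sum_mul]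
    congr 1
    refine Finset.sum_congr rfl fun e _ => ?_
    rw [mul_assoc, ← AddChar.map_add_eq_mul]
    congr 2
    simp [mul_add, Finset.sum_add_distrib]
  rw [Finset.sum_congr rfl fun u _ => h1 u, ← Finset.sum_div, Finset.sum_comm]
  rw [mul_div_assoc', Finset.mul_sum]
  congr 1
  refine Finset.sum_congr rfl fun e _ => ?_
  rw [← Finset.sum_mul]
  congr 1
  exact Fintype.sum_equiv (Equiv.addRight (bv m e)) _ _ (fun u => rfl)

lemma card_roots (α : Fin m → ZMod Q) (hα : α ≠ 0) :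
    (univ.filter fun x : ZMod Q => ∑ k : Fin m, α k * x ^ (k : ℕ) = 0).card ≤ m := by
  classical
  let P : Polynomial (ZMod Q) := ∑ k : Fin m, Polynomial.C (α k) * Polynomial.X ^ (k : ℕ)
  have hP : P ≠ 0 := by
    intro h0
    apply hα
    funext j
    have : P.coeff j = α j := by
      simp only [P, Polynomial.finsetSum_coeff, Polynomial.coeff_C_mul, Polynomial.coeff_X_pow]
      rw [Finset.sum_eq_single j]
      · simp
      · intro b _ hb
        have : (j : ℕ) ≠ (b : ℕ) := fun h => hb (Fin.ext h.symm)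
        simp [this]
      · simp
    rw [← this, h0]; simp
  have hdeg : P.natDegree ≤ m := by
    apply Polynomial.natDegree_sum_le_of_forall_le
    intro k _
    refine (Polynomial.natDegree_C_mul_X_pow_le _ _).trans k.2.le
  have hsub : (univ.filter fun x : ZMod Q => ∑ k : Fin m, α k * x ^ (k : ℕ) = 0) ⊆
      P.roots.toFinset := by
    intro x hx
    simp only [Finset.mem_filter, Finset.mem_univ, true_and] at hx
    rw [Multiset.mem_toFinset, Polynomial.mem_roots hP, Polynomial.IsRoot.def]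
    simp only [P, Polynomial.eval_finsetSum, Polynomial.eval_mul, Polynomial.eval_C,
      Polynomial.eval_pow, Polynomial.eval_X]
    exact hx
  calc _ ≤ P.roots.toFinset.card := Finset.card_le_card hsub
    _ ≤ Multiset.card P.roots := Multiset.toFinset_card_le _
    _ ≤ P.natDegree := Polynomial.card_roots' P
    _ ≤ m := hdeg

lemma sum_line (c : ZMod Q) :
    ∑ y : ZMod Q, (stdAddChar (-(y * c)) : ℂ) = if c = 0 then (Q : ℂ) else 0 := by
  have h := AddChar.sum_mulShift (-c) (isPrimitive_stdAddChar Q)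
  have h2 : ∀ y : ZMod Q, (stdAddChar (-(y * c)) : ℂ) = stdAddChar (y * (-c)) := by
    intro y; rw [mul_neg]
  simp_rw [h2]
  rw [h]
  simp [ZMod.card]

lemma mult_eq (α : Fin m → ZMod Q) :
    mult α = ((univ.filter fun x : ZMod Q => ∑ k : Fin m, α k * x ^ (k : ℕ) = 0).card : ℂ) / Q := by
  classical
  have hQ : (Q : ℂ) ≠ 0 := by exact_mod_cast (Fact.out : Q.Prime).ne_zero
  unfold mult
  rw [Fintype.sum_prod_type]
  have h1 : ∀ x : ZMod Q, ∑ y : ZMod Q, (stdAddChar (-(∑ k, α k * bv m (x, y) k)) : ℂ)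
      = if (∑ k : Fin m, α k * x ^ (k : ℕ)) = 0 then (Q : ℂ) else 0 := by
    intro x
    rw [← sum_line]
    refine Finset.sum_congr rfl fun y _ => ?_
    congr 2
    rw [Finset.mul_sum]
    refine Finset.sum_congr rfl fun k _ => ?_
    simp only [bv]
    ring
  simp_rw [h1]
  rw [← Finset.sum_filter, Finset.sum_const, nsmul_eq_mul, pow_two]
  field_simp

lemma norm_mult_le (α : Fin m → ZMod Q) (hα : α ≠ 0) : ‖mult α‖ ≤ (m : ℝ) / Q := by
  rw [mult_eq, norm_div]
  simp only [Complex.norm_natCast]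
  gcongr
  exact card_roots α hα

lemma mean_avg (f : (Fin m → ZMod Q) → ℝ) : mean (avg f) = mean f := by
  have hQ : (Q : ℝ) ≠ 0 := by exact_mod_cast (Fact.out : Q.Prime).ne_zero
  unfold mean avg
  congr 1
  rw [← Finset.sum_div, Finset.sum_comm]
  have : ∀ e : ZMod Q × ZMod Q, ∑ u : Fin m → ZMod Q, f (u + bv m e) = ∑ u, f u := by
    intro e
    exact Fintype.sum_equiv (Equiv.addRight (bv m e)) _ _ (fun u => rfl)
  simp_rw [this]
  simp only [Finset.sum_const, Finset.card_univ, Fintype.card_prod, ZMod.card, nsmul_eq_mul]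
  push_cast
  field_simp

lemma avg_sub_const (f : (Fin m → ZMod Q) → ℝ) (c : ℝ) (u : Fin m → ZMod Q) :
    avg (fun v => f v - c) u = avg f u - c := by
  have hQ : (Q : ℝ) ≠ 0 := by exact_mod_cast (Fact.out : Q.Prime).ne_zero
  unfold avg
  rw [Finset.sum_sub_distrib]
  simp only [Finset.sum_const, Finset.card_univ, Fintype.card_prod, ZMod.card, nsmul_eq_mul]
  push_cast
  field_simp

lemma ft_zero (f : (Fin m → ZMod Q) → ℝ) : ft f 0 = ((∑ u, f u : ℝ) : ℂ) := by
  unfold ft
  simp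

/-- **small bias**: the averaging operator contracts mean-zero functions -/
theorem bias (f : (Fin m → ZMod Q) → ℝ) :
    ∑ u, (avg f u - mean f) ^ 2 ≤ ((m : ℝ) / Q) ^ 2 * ∑ u, (f u - mean f) ^ 2 := by
  have hQ : (0 : ℝ) < (Q : ℝ) := by exact_mod_cast (Fact.out : Q.Prime).pos
  have hQm : (0 : ℝ) < (Q : ℝ) ^ m := by positivity
  set g : (Fin m → ZMod Q) → ℝ := fun v => f v - mean f with hg
  have h1 : ∀ u, avg f u - mean f = avg g u := fun u => (avg_sub_const f _ u).symm
  simp_rw [h1]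
  have hg0 : ft g 0 = 0 := by
    rw [ft_zero]
    have : ∑ u, g u = 0 := by
      simp only [hg, Finset.sum_sub_distrib, Finset.sum_const, Finset.card_univ, nsmul_eq_mul]
      unfold mean
      have : (Fintype.card (Fin m → ZMod Q) : ℝ) ≠ 0 := by
        exact_mod_cast Fintype.card_ne_zero
      field_simp
      ring
    rw [this]; simp
  have key : (Q : ℝ) ^ m * ∑ u, (avg g u) ^ 2 ≤
      (Q : ℝ) ^ m * (((m : ℝ) / Q) ^ 2 * ∑ u, g u ^ 2) := by
    rw [← parseval, mul_left_comm, ← parseval, Finset.mul_sum]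
    refine Finset.sum_le_sum fun α _ => ?_
    rw [ft_avg, norm_mul, mul_pow]
    by_cases hα : α = 0
    · subst hα
      rw [hg0]; simp
    · rw [mul_comm]
      gcongr
      exact norm_mult_le α hα
  exact le_of_mul_le_mul_left key hQm

end Fourier

end P313.H931
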