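import Mathlib
import Vale.Agent.P313.H931.Bias

/-!
# Chunk reduction: digits of random residues mod `Q` are almost uniform (block D)
-/

namespace P313.H931

open Finset

/-- digit `i` of the sample `a` (chunk `i / c0`, digit `i % c0` in base `q`) -/
def dig {Q D : ℕ} (q c0 : ℕ) (a : Fin D → ZMod Q) (i : ℕ) : ℕ :=
  if h : i / c0 < D then (a ⟨i / c0, h⟩).val / q ^ (i % c0) % q else 0

/-- the sample as a tape content -/
def smp {Q D : ℕ} (q c0 L : ℕ) (a : Fin D → ZMod Q) : Fin L → ZMod q :=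
  fun i => (dig q c0 a i : ZMod q)

lemma digit_mod (x q c0 t : ℕ) (ht : t < c0) : (x % q ^ c0) / q ^ t % q = x / q ^ t % q := by
  rw [← Nat.mod_mul_right_div_self, ← Nat.mod_mul_right_div_self x, Nat.mod_mod_of_dvd]
  rw [← pow_succ]
  exact pow_dvd_pow q ht

/-- number of `y < q^c0` with prescribed digits at the positions in `T` -/
lemma card_digits (q c0 : ℕ) (T : Finset (Fin c0)) (d : Fin c0 → ℕ) :
    (univ.filter fun y : Fin (q ^ c0) => ∀ t ∈ T, (y : ℕ) / q ^ (t : ℕ) % q = d t).card *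
      q ^ T.card ≤ q ^ c0 := by
  classical
  have h1 : (univ.filter fun y : Fin (q ^ c0) => ∀ t ∈ T, (y : ℕ) / q ^ (t : ℕ) % q = d t).card ≤
      (Fintype.piFinset fun t : Fin c0 =>
        if t ∈ T then univ.filter fun g : Fin q => (g : ℕ) = d t else univ).card := by
    apply Finset.card_le_card_of_injOn (fun y => finFunctionFinEquiv.symm y)
    · intro y hy
      simp only [Finset.coe_filter, Finset.mem_univ, true_and, Set.mem_ofPred_eq] at hy
      rw [Finset.mem_coe, Fintype.mem_piFinset]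
      intro t
      split_ifs with ht
      · rw [Finset.mem_filter]
        refine ⟨Finset.mem_univ _, ?_⟩
        rw [finFunctionFinEquiv_symm_apply_val]
        exact hy t ht
      · exact Finset.mem_univ _
    · exact fun a _ b _ h => finFunctionFinEquiv.symm.injective h
  rw [Fintype.card_piFinset] at h1
  have h2 : ∀ t : Fin c0, (if t ∈ T then univ.filter fun g : Fin q => (g : ℕ) = d t else univ).card ≤
      if t ∈ T then 1 else q := by
    intro t
    split_ifs with ht
    · rw [Finset.card_le_one]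
      intro a ha b hb
      rw [Finset.mem_filter] at ha hb
      exact Fin.ext (ha.2.trans hb.2.symm)
    · simp
  have h3 : (∏ t : Fin c0, (if t ∈ T then univ.filter fun g : Fin q => (g : ℕ) = d t
      else univ).card) ≤ ∏ t : Fin c0, (if t ∈ T then 1 else q) :=
    Finset.prod_le_prod' fun t _ => h2 t
  have h4 : (∏ t : Fin c0, (if t ∈ T then 1 else q)) * q ^ T.card = q ^ c0 := by
    have e1 : q ^ T.card = ∏ t : Fin c0, (if t ∈ T then q else 1) := by
      rw [Finset.prod_ite, Finset.prod_const, Finset.prod_const_one, mul_one]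
      congr 1
      simp
    rw [e1, ← Finset.prod_mul_distrib]
    have : ∀ t : Fin c0, ((if t ∈ T then 1 else q) * (if t ∈ T then q else 1)) = q := by
      intro t; split_ifs <;> simp
    simp_rw [this]
    simp
  calc _ ≤ (∏ t : Fin c0, (if t ∈ T then 1 else q)) * q ^ T.card := by
        gcongr
        exact h1.trans h3
    _ = _ := h4

variable {Q : ℕ} [Fact Q.Prime]

/-- one chunk -/
lemma card_chunk (q c0 : ℕ) (hq : 0 < q) (T : Finset (Fin c0)) (d : Fin c0 → ℕ) :
    (univ.filter fun x : ZMod Q => ∀ t ∈ T, x.val / q ^ (t : ℕ) % q = d t).card *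
      q ^ T.card ≤ Q + q ^ c0 := by
  classical
  set M := q ^ c0 with hM
  have hMpos : 0 < M := by positivity
  have h1 : (univ.filter fun x : ZMod Q => ∀ t ∈ T, x.val / q ^ (t : ℕ) % q = d t).card ≤
      ((univ : Finset (Fin (Q / M + 1))) ×ˢ
        (univ.filter fun y : Fin (q ^ c0) => ∀ t ∈ T, (y : ℕ) / q ^ (t : ℕ) % q = d t)).card := by
    apply Finset.card_le_card_of_injOn (fun x : ZMod Q =>
      ((⟨x.val / M, Nat.lt_succ_of_le (Nat.div_le_div_right (ZMod.val_lt x).le)⟩ :
        Fin (Q / M + 1)), (⟨x.val % M, Nat.mod_lt _ hMpos⟩ : Fin (q ^ c0))))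
    · intro x hx
      simp only [Finset.coe_filter, Finset.mem_univ, true_and, Set.mem_ofPred_eq] at hx
      rw [Finset.mem_coe, Finset.mem_product, Finset.mem_filter]
      refine ⟨Finset.mem_univ _, Finset.mem_univ _, fun t ht => ?_⟩
      show (x.val % M) / q ^ (t : ℕ) % q = d t
      rw [hM, digit_mod _ _ _ _ t.2]
      exact hx t ht
    · intro x _ y _ hxy
      simp only [Prod.mk.injEq, Fin.mk.injEq] at hxy
      apply ZMod.val_injective Q
      rw [← Nat.div_add_mod x.val M, ← Nat.div_add_mod y.val M, hxy.1, hxy.2]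
  rw [Finset.card_product, Finset.card_univ, Fintype.card_fin] at h1
  have h2 := card_digits q c0 T d
  calc _ ≤ ((Q / M + 1) * (univ.filter fun y : Fin (q ^ c0) => ∀ t ∈ T,
        (y : ℕ) / q ^ (t : ℕ) % q = d t).card) * q ^ T.card := by gcongr
    _ = (Q / M + 1) * ((univ.filter fun y : Fin (q ^ c0) => ∀ t ∈ T,
        (y : ℕ) / q ^ (t : ℕ) % q = d t).card * q ^ T.card) := by ring
    _ ≤ (Q / M + 1) * M := by gcongr
    _ = (Q / M) * M + M := by ring
    _ ≤ Q + M := by gcongr; exact Nat.div_mul_le_self Q M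

/-- one chunk, positions indexed by an injective family -/
lemma card_chunk' (q c0 : ℕ) (hq : 0 < q) (hc0 : 0 < c0) {L : ℕ} (K : Finset (Fin L))
    (hK : Set.InjOn (fun i : Fin L => (i : ℕ) % c0) K) (d : Fin L → ℕ) :
    (univ.filter fun x : ZMod Q => ∀ i ∈ K, x.val / q ^ ((i : ℕ) % c0) % q = d i).card *
      q ^ K.card ≤ Q + q ^ c0 := by
  classical
  rcases (univ.filter fun x : ZMod Q =>
    ∀ i ∈ K, x.val / q ^ ((i : ℕ) % c0) % q = d i).eq_empty_or_nonempty with h0 | ⟨x0, hx0⟩
  · rw [h0]; simp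
  · rw [Finset.mem_filter] at hx0
    let T : Finset (Fin c0) := K.image fun i : Fin L =>
      (⟨(i : ℕ) % c0, Nat.mod_lt _ hc0⟩ : Fin c0)
    have hT : T.card = K.card := by
      apply Finset.card_image_of_injOn
      intro i hi j hj hij
      simp only [Fin.mk.injEq] at hij
      exact hK hi hj hij
    have := card_chunk (Q := Q) q c0 hq T (fun t => x0.val / q ^ (t : ℕ) % q)
    rw [hT] at this
    refine le_trans ?_ this
    gcongr
    intro hx t ht
    simp only [T, Finset.mem_image] at ht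
    obtain ⟨i, hi, rfl⟩ := ht
    simp only
    rw [hx i hi, hx0.2 i hi]

/-- fibres of the sample map -/
lemma card_smp (q c0 L D : ℕ) [NeZero q] (hc0 : 0 < c0) (hL : L ≤ c0 * D)
    (y : Fin L → ZMod q) :
    (univ.filter fun a : Fin D → ZMod Q => smp q c0 L a = y).card * q ^ L ≤ (Q + q ^ c0) ^ D := by
  classical
  have hq : 0 < q := Nat.pos_of_ne_zero (NeZero.ne q)
  have hlt : ∀ i : Fin L, (i : ℕ) / c0 < D := fun i => by
    rw [Nat.div_lt_iff_lt_mul hc0, mul_comm]; exact lt_of_lt_of_le i.2 hL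
  let K : Fin D → Finset (Fin L) := fun c => univ.filter fun i : Fin L => (i : ℕ) / c0 = c
  have hKinj : ∀ c, Set.InjOn (fun i : Fin L => (i : ℕ) % c0) (K c) := by
    intro c i hi j hj hij
    simp only [K, Finset.coe_filter, Finset.mem_univ, true_and, Set.mem_ofPred_eq] at hi hj
    apply Fin.ext
    rw [← Nat.div_add_mod (i : ℕ) c0, ← Nat.div_add_mod (j : ℕ) c0, hi, hj]
    simp only at hij
    rw [hij]
  have hsub : (univ.filter fun a : Fin D → ZMod Q => smp q c0 L a = y) ⊆
      Fintype.piFinset fun c : Fin D => univ.filter fun x : ZMod Q =>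
        ∀ i ∈ K c, x.val / q ^ ((i : ℕ) % c0) % q = (y i).val := by
    intro a ha
    rw [Finset.mem_filter] at ha
    rw [Fintype.mem_piFinset]
    intro c
    rw [Finset.mem_filter]
    refine ⟨Finset.mem_univ _, fun i hi => ?_⟩
    simp only [K, Finset.mem_filter, Finset.mem_univ, true_and] at hi
    have h1 : smp q c0 L a i = y i := by rw [ha.2]
    rw [← h1]
    unfold smp dig
    rw [dif_pos (hlt i), ZMod.val_natCast]
    have hc : (⟨(i : ℕ) / c0, hlt i⟩ : Fin D) = c := Fin.ext hi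
    rw [hc, Nat.mod_mod]
  have hcard := Finset.card_le_card hsub
  rw [Fintype.card_piFinset] at hcard
  have hsumK : ∑ c : Fin D, (K c).card = L := by
    have h := Finset.card_eq_sum_card_fiberwise (f := fun i : Fin L => (⟨(i : ℕ) / c0, hlt i⟩ : Fin D))
      (s := univ) (t := univ) (fun _ _ => Finset.mem_coe.2 (Finset.mem_univ _))
    rw [Finset.card_univ, Fintype.card_fin] at h
    refine Eq.trans (Finset.sum_congr rfl fun c _ => ?_) h.symm
    congr 1
    ext i
    simp only [K, Finset.mem_filter, Finset.mem_univ, true_and]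
    constructor
    · intro hi; exact Fin.ext hi
    · intro hi; exact congrArg Fin.val hi
  calc (univ.filter fun a : Fin D → ZMod Q => smp q c0 L a = y).card * q ^ L
      ≤ (∏ c : Fin D, (univ.filter fun x : ZMod Q =>
        ∀ i ∈ K c, x.val / q ^ ((i : ℕ) % c0) % q = (y i).val).card) * q ^ L := by gcongr
    _ = ∏ c : Fin D, ((univ.filter fun x : ZMod Q =>
        ∀ i ∈ K c, x.val / q ^ ((i : ℕ) % c0) % q = (y i).val).card * q ^ (K c).card) := by
        rw [Finset.prod_mul_distrib, Finset.prod_pow_eq_pow_sum, hsumK]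
    _ ≤ ∏ _c : Fin D, (Q + q ^ c0) := by
        refine Finset.prod_le_prod' fun c _ => ?_
        exact card_chunk' q c0 hq hc0 (K c) (hKinj c) fun i => (y i).val
    _ = (Q + q ^ c0) ^ D := by simp

/-- one-sided comparison of means -/
lemma mean_smp_le (q c0 L D : ℕ) [NeZero q] (hc0 : 0 < c0) (hL : L ≤ c0 * D)
    (f : (Fin L → ZMod q) → ℝ) (hf0 : ∀ y, 0 ≤ f y) :
    mean (fun a : Fin D → ZMod Q => f (smp q c0 L a)) ≤
      (1 + (q : ℝ) ^ c0 / Q) ^ D * mean f := by
  classical
  have hq : 0 < q := Nat.pos_of_ne_zero (NeZero.ne q)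
  have hqR : (0 : ℝ) < (q : ℝ) := by exact_mod_cast hq
  have hQ : (0 : ℝ) < (Q : ℝ) := by exact_mod_cast (Fact.out : Q.Prime).pos
  unfold mean
  have h1 : ∑ a : Fin D → ZMod Q, f (smp q c0 L a) =
      ∑ y : Fin L → ZMod q,
        ((univ.filter fun a : Fin D → ZMod Q => smp q c0 L a = y).card : ℝ) * f y := by
    rw [← Finset.sum_fiberwise (s := univ) (g := fun a : Fin D → ZMod Q => smp q c0 L a)]
    refine Finset.sum_congr rfl fun y _ => ?_
    rw [Finset.sum_congr rfl (g := fun _ => f y), Finset.sum_const, nsmul_eq_mul]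
    intro a ha
    rw [Finset.mem_filter] at ha
    rw [ha.2]
  rw [h1]
  have hcardW : (Fintype.card (Fin D → ZMod Q) : ℝ) = (Q : ℝ) ^ D := by simp [ZMod.card]
  have hcardY : (Fintype.card (Fin L → ZMod q) : ℝ) = (q : ℝ) ^ L := by simp [ZMod.card]
  rw [hcardW, hcardY, div_le_iff₀ (by positivity)]
  have h2 : (1 + (q : ℝ) ^ c0 / Q) ^ D * ((∑ y, f y) / (q : ℝ) ^ L) * (Q : ℝ) ^ D =
      ∑ y : Fin L → ZMod q, ((Q : ℝ) + (q : ℝ) ^ c0) ^ D / (q : ℝ) ^ L * f y := by
    rw [← Finset.mul_sum]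
    have : (1 + (q : ℝ) ^ c0 / Q) ^ D * (Q : ℝ) ^ D = ((Q : ℝ) + (q : ℝ) ^ c0) ^ D := by
      rw [← mul_pow]
      congr 1
      field_simp
    rw [← this]
    field_simp
  rw [h2]
  refine Finset.sum_le_sum fun y _ => ?_
  gcongr
  · exact hf0 y
  · rw [le_div_iff₀ (by positivity)]
    exact_mod_cast card_smp (Q := Q) q c0 L D hc0 hL y

/-- comparison of means -/
lemma mean_smp (q c0 L D : ℕ) [NeZero q] (hc0 : 0 < c0) (hL : L ≤ c0 * D)
    (f : (Fin L → ZMod q) → ℝ) {B : ℝ} (hf0 : ∀ y, 0 ≤ f y) (hfB : ∀ y, f y ≤ B) :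
    |mean (fun a : Fin D → ZMod Q => f (smp q c0 L a)) - mean f| ≤
      B * ((1 + (q : ℝ) ^ c0 / Q) ^ D - 1) := by
  have hq : 0 < q := Nat.pos_of_ne_zero (NeZero.ne q)
  have hqR : (0 : ℝ) < (q : ℝ) := by exact_mod_cast hq
  have hQ : (0 : ℝ) < (Q : ℝ) := by exact_mod_cast (Fact.out : Q.Prime).pos
  have hW : (0 : ℝ) < (Fintype.card (Fin D → ZMod Q) : ℝ) := by exact_mod_cast Fintype.card_pos
  have hY : (0 : ℝ) < (Fintype.card (Fin L → ZMod q) : ℝ) := by exact_mod_cast Fintype.card_pos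
  have hδ : 1 ≤ (1 + (q : ℝ) ^ c0 / Q) ^ D := by
    apply one_le_pow₀
    have : 0 ≤ (q : ℝ) ^ c0 / Q := by positivity
    linarith
  have h1 := mean_smp_le (Q := Q) q c0 L D hc0 hL f hf0
  have h2 := mean_smp_le (Q := Q) q c0 L D hc0 hL (fun y => B - f y)
    (fun y => sub_nonneg.2 (hfB y))
  have e1 : mean (fun a : Fin D → ZMod Q => B - f (smp q c0 L a)) =
      B - mean (fun a : Fin D → ZMod Q => f (smp q c0 L a)) := by
    unfold mean
    rw [Finset.sum_sub_distrib]
    simp only [Finset.sum_const, Finset.card_univ, nsmul_eq_mul]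
    field_simp
  have e2 : mean (fun y : Fin L → ZMod q => B - f y) = B - mean f := by
    unfold mean
    rw [Finset.sum_sub_distrib]
    simp only [Finset.sum_const, Finset.card_univ, nsmul_eq_mul]
    field_simp
  rw [e1, e2] at h2
  have hm0 : 0 ≤ mean f := div_nonneg (Finset.sum_nonneg fun w _ => hf0 w) hY.le
  have hmB : mean f ≤ B := by
    unfold mean
    rw [div_le_iff₀ hY]
    calc ∑ w, f w ≤ ∑ _w : Fin L → ZMod q, B := Finset.sum_le_sum fun w _ => hfB w
      _ = _ := by rw [Finset.sum_const, Finset.card_univ, nsmul_eq_mul, mul_comm]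
  set δ := (1 + (q : ℝ) ^ c0 / Q) ^ D with hδdef
  rw [abs_le]
  constructor
  · nlinarith [mul_nonneg (sub_nonneg.2 hδ) hm0]
  · nlinarith [mul_nonneg (sub_nonneg.2 hδ) (sub_nonneg.2 hmB)]

end P313.H931
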