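import Mathlib
import Vale.Agent.P313.H931.Bias

/-!
# Pairwise independent lines (block D)

For `(A,B)` uniform in `W × W`, `W = (Fin D → ZMod Q)`, the points `A + s B`, `s : ZMod Q`, are
pairwise independent: second moment identity and Chebyshev bound, transported to
`Fin (D + D) → ZMod Q`.
-/

namespace P313.H931

open Finset

variable {Q : ℕ} [Fact Q.Prime] {D : ℕ}

/-- point of the line -/
def ln (u : Fin (D + D) → ZMod Q) (s : ZMod Q) : Fin D → ZMod Q :=
  fun k => u (Fin.castAdd D k) + s * u (Fin.natAdd D k)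

/-- estimate along the line -/
noncomputable def lest (f : (Fin D → ZMod Q) → ℝ) (u : Fin (D + D) → ZMod Q) : ℝ :=
  (∑ s : ZMod Q, f (ln u s)) / Q

/-- the bijection `(A,B) ↦ (A + j B, A + j' B)` -/
def lineEquiv (j j' : ZMod Q) (h : j ≠ j') :
    ((Fin D → ZMod Q) × (Fin D → ZMod Q)) ≃ ((Fin D → ZMod Q) × (Fin D → ZMod Q)) where
  toFun p := (fun k => p.1 k + j * p.2 k, fun k => p.1 k + j' * p.2 k)
  invFun p := (fun k => p.1 k - j * ((j - j')⁻¹ * (p.1 k - p.2 k)),
    fun k => (j - j')⁻¹ * (p.1 k - p.2 k))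
  left_inv p := by
    have hj : j - j' ≠ 0 := sub_ne_zero.2 h
    ext k
    · simp only
      field_simp
      ring
    · simp only
      field_simp
      ring
  right_inv p := by
    have hj : j - j' ≠ 0 := sub_ne_zero.2 h
    ext k
    · simp only
      ring
    · simp only
      field_simp
      ring

lemma sum_pair_ne (g : (Fin D → ZMod Q) → ℝ) (hg : ∑ w, g w = 0) (j j' : ZMod Q) (h : j ≠ j') :
    ∑ p : (Fin D → ZMod Q) × (Fin D → ZMod Q),
      g (fun k => p.1 k + j * p.2 k) * g (fun k => p.1 k + j' * p.2 k) = 0 := by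
  have h1 := (lineEquiv (D := D) j j' h).sum_comp
    (fun p : (Fin D → ZMod Q) × (Fin D → ZMod Q) => g p.1 * g p.2)
  have h2 : ∑ p : (Fin D → ZMod Q) × (Fin D → ZMod Q), g p.1 * g p.2 = 0 := by
    rw [Fintype.sum_prod_type]
    simp_rw [← Finset.mul_sum, hg]
    simp
  rw [h2] at h1
  exact h1

lemma sum_pair_eq (g : (Fin D → ZMod Q) → ℝ) (j : ZMod Q) :
    ∑ p : (Fin D → ZMod Q) × (Fin D → ZMod Q),
      g (fun k => p.1 k + j * p.2 k) * g (fun k => p.1 k + j * p.2 k) =
    (Fintype.card (Fin D → ZMod Q) : ℝ) * ∑ w, g w ^ 2 := by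
  rw [Fintype.sum_prod_type_right]
  have : ∀ B : Fin D → ZMod Q,
      ∑ A : Fin D → ZMod Q, g (fun k => A k + j * B k) * g (fun k => A k + j * B k) =
        ∑ w, g w ^ 2 := by
    intro B
    refine Fintype.sum_equiv (Equiv.addRight (fun k => j * B k : Fin D → ZMod Q)) _ _ fun A => ?_
    rw [pow_two]
    rfl
  simp_rw [this]
  rw [Finset.sum_const, Finset.card_univ, nsmul_eq_mul]

/-- second moment of the sum along a random line -/
lemma second_moment (g : (Fin D → ZMod Q) → ℝ) (hg : ∑ w, g w = 0) :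
    ∑ u : Fin (D + D) → ZMod Q, (∑ s : ZMod Q, g (ln u s)) ^ 2 =
      Q * ((Fintype.card (Fin D → ZMod Q) : ℝ) * ∑ w, g w ^ 2) := by
  rw [← (Fin.appendEquiv D D).sum_comp]
  have h1 : ∀ p : (Fin D → ZMod Q) × (Fin D → ZMod Q), ∀ s : ZMod Q,
      ln (Fin.appendEquiv D D p) s = fun k => p.1 k + s * p.2 k := by
    intro p s
    funext k
    show Fin.append p.1 p.2 (Fin.castAdd D k) + s * Fin.append p.1 p.2 (Fin.natAdd D k) = _
    rw [Fin.append_left, Fin.append_right]
  simp_rw [h1, pow_two, Finset.sum_mul_sum]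
  rw [Finset.sum_comm]
  have h2 : ∀ j : ZMod Q, ∑ p : (Fin D → ZMod Q) × (Fin D → ZMod Q), ∑ j' : ZMod Q,
      g (fun k => p.1 k + j * p.2 k) * g (fun k => p.1 k + j' * p.2 k) =
      (Fintype.card (Fin D → ZMod Q) : ℝ) * ∑ w, g w ^ 2 := by
    intro j
    rw [Finset.sum_comm, Finset.sum_eq_single j]
    · exact sum_pair_eq g j
    · intro j' _ hj'
      exact sum_pair_ne g hg j j' (Ne.symm hj')
    · simp
  simp_rw [h2]
  simp only [Finset.sum_const, Finset.card_univ, ZMod.card, nsmul_eq_mul, pow_two]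

/-- Chebyshev along a random line -/
theorem cheb (f : (Fin D → ZMod Q) → ℝ) {B eps : ℝ} (hf0 : ∀ w, 0 ≤ f w) (hfB : ∀ w, f w ≤ B)
    (heps : 0 < eps) :
    ((univ.filter fun u : Fin (D + D) → ZMod Q => eps < |lest f u - mean f|).card : ℝ) ≤
      (B ^ 2 / (eps ^ 2 * Q)) * Fintype.card (Fin (D + D) → ZMod Q) := by
  classical
  have hQ : (0 : ℝ) < (Q : ℝ) := by exact_mod_cast (Fact.out : Q.Prime).pos
  have hW : (0 : ℝ) < (Fintype.card (Fin D → ZMod Q) : ℝ) := by exact_mod_cast Fintype.card_pos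
  set g : (Fin D → ZMod Q) → ℝ := fun w => f w - mean f with hg
  have hsum : ∑ w, f w = Fintype.card (Fin D → ZMod Q) * mean f := by
    unfold mean
    field_simp
  have hg0 : ∑ w, g w = 0 := by
    rw [hg, Finset.sum_sub_distrib, hsum]
    simp
  have hm0 : 0 ≤ mean f := div_nonneg (Finset.sum_nonneg fun w _ => hf0 w) hW.le
  have hmB : mean f ≤ B := by
    unfold mean
    rw [div_le_iff₀ hW]
    calc ∑ w, f w ≤ ∑ _w : Fin D → ZMod Q, B := Finset.sum_le_sum fun w _ => hfB w
      _ = _ := by rw [Finset.sum_const, Finset.card_univ, nsmul_eq_mul, mul_comm]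
  have hg2 : ∑ w, g w ^ 2 ≤ Fintype.card (Fin D → ZMod Q) * B ^ 2 := by
    calc ∑ w, g w ^ 2 ≤ ∑ _w : Fin D → ZMod Q, B ^ 2 := by
          refine Finset.sum_le_sum fun w _ => ?_
          apply sq_le_sq'
          · simp only [hg]; linarith [hf0 w]
          · simp only [hg]; linarith [hfB w]
      _ = _ := by rw [Finset.sum_const, Finset.card_univ, nsmul_eq_mul]
  have hdiff : ∀ u, lest f u - mean f = (∑ s : ZMod Q, g (ln u s)) / Q := by
    intro u
    simp only [lest, hg, Finset.sum_sub_distrib, Finset.sum_const, Finset.card_univ, ZMod.card,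
      nsmul_eq_mul]
    field_simp
  have hmom : ∑ u : Fin (D + D) → ZMod Q, (lest f u - mean f) ^ 2 ≤
      (B ^ 2 / Q) * Fintype.card (Fin (D + D) → ZMod Q) := by
    simp_rw [hdiff, div_pow]
    rw [← Finset.sum_div, second_moment g hg0]
    have hcard : (Fintype.card (Fin (D + D) → ZMod Q) : ℝ) =
        Fintype.card (Fin D → ZMod Q) * Fintype.card (Fin D → ZMod Q) := by
      simp [ZMod.card, pow_add]
    rw [hcard, div_le_iff₀ (by positivity)]
    calc (Q : ℝ) * ((Fintype.card (Fin D → ZMod Q) : ℝ) * ∑ w, g w ^ 2)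
        ≤ (Q : ℝ) * ((Fintype.card (Fin D → ZMod Q) : ℝ) *
          (Fintype.card (Fin D → ZMod Q) * B ^ 2)) := by gcongr
      _ = _ := by field_simp
  have hcount : ((univ.filter fun u : Fin (D + D) → ZMod Q =>
      eps < |lest f u - mean f|).card : ℝ) * eps ^ 2 ≤
      ∑ u : Fin (D + D) → ZMod Q, (lest f u - mean f) ^ 2 := by
    calc ((univ.filter fun u : Fin (D + D) → ZMod Q =>
      eps < |lest f u - mean f|).card : ℝ) * eps ^ 2 =
        ∑ _u ∈ univ.filter fun u : Fin (D + D) → ZMod Q => eps < |lest f u - mean f|, eps ^ 2 := by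
          rw [Finset.sum_const, nsmul_eq_mul]
      _ ≤ ∑ u ∈ univ.filter fun u : Fin (D + D) → ZMod Q => eps < |lest f u - mean f|,
          (lest f u - mean f) ^ 2 := by
          refine Finset.sum_le_sum fun u hu => ?_
          rw [Finset.mem_filter] at hu
          rw [← sq_abs (lest f u - mean f)]
          have := hu.2.le
          gcongr
      _ ≤ _ := Finset.sum_le_sum_of_subset_of_nonneg (Finset.filter_subset _ _)
          fun u _ _ => sq_nonneg _
  have heps2 : 0 < eps ^ 2 := by positivity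
  rw [← le_div_iff₀ heps2] at hcount
  refine hcount.trans ?_
  rw [div_le_iff₀ heps2]
  refine hmom.trans (le_of_eq ?_)
  field_simp

end P313.H931
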