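import Mathlib
import Vale.Agent.P313.H931.Bias

/-!
# Random walks with an averaging operator of small norm avoid/hit small sets (block D)

`pt b u e i = u + ∑_{j<i} b (e j)`; if the averaging operator over `b` contracts mean-zero
functions by `lam ≤ 1` and `Bd` has density `≤ mu`, then the number of seeds `(u,e)` for which
at least `k` of the `l+1` points lie in `Bd` is at most `2^(l+1) (mu+lam)^k` times the number of
seeds.
-/

namespace P313.H931

open Finset

variable {V E : Type*} [AddCommGroup V] [Fintype V] [Fintype E] (b : E → V)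

/-- averaging operator -/
noncomputable def Av (f : V → ℝ) (u : V) : ℝ := (∑ e, f (u + b e)) / Fintype.card E

/-- position at time `i` of the walk with steps `b (e j)` -/
def pt {l : ℕ} (u : V) (e : Fin l → E) (i : ℕ) : V :=
  u + ∑ j ∈ univ.filter (fun j : Fin l => j.val < i), b (e j)

omit [Fintype V] [Fintype E] in
@[simp] lemma pt_zero {l : ℕ} (u : V) (e : Fin l → E) : pt b u e 0 = u := by
  simp [pt]

omit [Fintype V] [Fintype E] in
lemma pt_cons {l : ℕ} (u : V) (e0 : E) (e : Fin l → E) (i : ℕ) :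
    pt b u (Fin.cons e0 e : Fin (l + 1) → E) (i + 1) = pt b (u + b e0) e i := by
  unfold pt
  rw [Finset.sum_filter, Finset.sum_filter, Fin.sum_univ_succ]
  simp [add_assoc]

/-- normalised weight of the walks meeting the requirements `S` -/
noncomputable def G (ind : V → ℝ) (l : ℕ) (S : ℕ → Bool) (u : V) : ℝ :=
  (∑ e : Fin l → E, ∏ i ∈ range (l + 1), (if S i then ind (pt b u e i) else 1)) /
    (Fintype.card E : ℝ) ^ l

omit [Fintype V] in
lemma G_zero (ind : V → ℝ) (S : ℕ → Bool) (u : V) :
    G b ind 0 S u = if S 0 then ind u else 1 := by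
  simp [G]

omit [Fintype V] in
lemma G_succ (ind : V → ℝ) (l : ℕ) (S : ℕ → Bool) (u : V) :
    G b ind (l + 1) S u = (if S 0 then ind u else 1) *
      Av b (G b ind l (fun i => S (i + 1))) u := by
  unfold G Av
  rw [← (Fin.consEquiv (fun _ : Fin (l + 1) => E)).sum_comp, Fintype.sum_prod_type]
  rw [← Finset.sum_div, div_div, ← pow_succ, mul_div_assoc']
  congr 1
  rw [Finset.mul_sum]
  refine Finset.sum_congr rfl fun e0 _ => ?_
  rw [Finset.mul_sum]
  refine Finset.sum_congr rfl fun e _ => ?_
  rw [Finset.prod_range_succ', mul_comm]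
  simp only [Fin.consEquiv, Equiv.coe_fn_mk, pt_zero]
  congr 1
  refine Finset.prod_congr rfl fun i _ => ?_
  rw [pt_cons]

lemma mean_Av [Nonempty E] (f : V → ℝ) : mean (Av b f) = mean f := by
  have hE : (Fintype.card E : ℝ) ≠ 0 := by exact_mod_cast Fintype.card_ne_zero
  unfold mean Av
  congr 1
  rw [← Finset.sum_div, Finset.sum_comm]
  have : ∀ e : E, ∑ u : V, f (u + b e) = ∑ u, f u := by
    intro e
    exact Fintype.sum_equiv (Equiv.addRight (b e)) _ _ (fun u => rfl)
  simp_rw [this]
  simp only [Finset.sum_const, Finset.card_univ, nsmul_eq_mul]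
  field_simp

lemma sum_eq_mean (f : V → ℝ) : ∑ u, f u = Fintype.card V * mean f := by
  have hV : (Fintype.card V : ℝ) ≠ 0 := by exact_mod_cast Fintype.card_ne_zero
  unfold mean
  field_simp

lemma sum_sub_mean (f : V → ℝ) : ∑ u, (f u - mean f) = 0 := by
  rw [Finset.sum_sub_distrib, sum_eq_mean]
  simp

/-- number of requirements -/
def cnt (l : ℕ) (S : ℕ → Bool) : ℕ := ((range (l + 1)).filter fun i => S i = true).card

lemma cnt_zero (S : ℕ → Bool) : cnt 0 S = if S 0 then 1 else 0 := by
  unfold cnt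
  by_cases h : S 0 <;> simp [h, Finset.filter_singleton]

lemma cnt_succ (l : ℕ) (S : ℕ → Bool) :
    cnt (l + 1) S = cnt l (fun i => S (i + 1)) + if S 0 then 1 else 0 := by
  unfold cnt
  rw [Finset.card_filter, Finset.card_filter, Finset.sum_range_succ']

/-- one step of the estimate -/
lemma step_bound {mu t x c N I1 I2 : ℝ} (hN : 0 < N) (_hmu : 0 ≤ mu)
    (ht : 0 ≤ t) (htt : t ^ 2 = mu / N) (hx : 0 ≤ x) (hc : 0 ≤ c)
    (hI1 : I1 ≤ mu * N) (_hI10 : 0 ≤ I1) (hI2 : I2 ^ 2 ≤ I1 * x ^ 2) :
    (c * I1 + I2) / N ≤ mu * c + t * x ∧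
    t ^ 2 * (c ^ 2 * I1 + 2 * c * I2 + x ^ 2) ≤ (mu * c + t * x) ^ 2 := by
  have htN : t ^ 2 * N = mu := by rw [htt]; field_simp
  have h2 : I2 ≤ N * t * x := by
    have h3 : I2 ^ 2 ≤ (N * t * x) ^ 2 := by
      calc I2 ^ 2 ≤ I1 * x ^ 2 := hI2
        _ ≤ (mu * N) * x ^ 2 := by gcongr
        _ = (N * t * x) ^ 2 := by rw [← htN]; ring
    exact le_of_sq_le_sq h3 (by positivity)
  constructor
  · rw [div_le_iff₀ hN]
    nlinarith [mul_le_mul_of_nonneg_left hI1 hc]
  · have e1 : t ^ 2 * (c ^ 2 * I1) ≤ mu ^ 2 * c ^ 2 := by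
      calc t ^ 2 * (c ^ 2 * I1) ≤ t ^ 2 * (c ^ 2 * (mu * N)) := by gcongr
        _ = mu ^ 2 * c ^ 2 := by rw [← htN]; ring
    have e2 : t ^ 2 * (2 * c * I2) ≤ 2 * (mu * c) * (t * x) := by
      calc t ^ 2 * (2 * c * I2) ≤ t ^ 2 * (2 * c * (N * t * x)) := by gcongr
        _ = 2 * (mu * c) * (t * x) := by rw [← htN]; ring
    nlinarith

theorem G_bound [Nonempty E] (ind : V → ℝ) (hind : ∀ u, ind u = 0 ∨ ind u = 1)
    {mu lam : ℝ} (hmu : mean ind ≤ mu) (hlam0 : 0 ≤ lam) (hlam1 : lam ≤ 1)
    (hbias : ∀ f : V → ℝ, ∑ u, (Av b f u - mean f) ^ 2 ≤ lam ^ 2 * ∑ u, (f u - mean f) ^ 2)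
    {t : ℝ} (ht : 0 ≤ t) (htt : t ^ 2 = mu / Fintype.card V) (l : ℕ) :
    ∀ S : ℕ → Bool, 0 ≤ mean (G b ind l S) ∧ mean (G b ind l S) ≤ (mu + lam) ^ cnt l S ∧
      t * Real.sqrt (∑ u, (G b ind l S u - mean (G b ind l S)) ^ 2) ≤ (mu + lam) ^ cnt l S := by
  have hV : (0 : ℝ) < (Fintype.card V : ℝ) := by exact_mod_cast Fintype.card_pos
  have hV' : (Fintype.card V : ℝ) ≠ 0 := hV.ne'
  have hmu0' : 0 ≤ mean ind := by
    unfold mean
    apply div_nonneg _ hV.le
    exact Finset.sum_nonneg fun u _ => by rcases hind u with h | h <;> rw [h]; norm_num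
  have hmu0 : 0 ≤ mu := hmu0'.trans hmu
  have hI1 : ∑ u, ind u ≤ mu * Fintype.card V := by
    rw [sum_eq_mean, mul_comm]
    gcongr
  have hI10 : 0 ≤ ∑ u, ind u := by
    exact Finset.sum_nonneg fun u _ => by rcases hind u with h | h <;> rw [h]; norm_num
  have hsq : ∀ u, ind u ^ 2 = ind u := by
    intro u; rcases hind u with h | h <;> rw [h] <;> norm_num
  have htN : t ^ 2 * Fintype.card V = mu := by rw [htt]; field_simp
  -- general multiplication step
  have main : ∀ (c : ℝ) (h : V → ℝ), 0 ≤ c → (∑ u, h u = 0) →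
      mean (fun u => ind u * (c + h u)) ≤ mu * c + t * Real.sqrt (∑ u, h u ^ 2) ∧
      t * Real.sqrt (∑ u, (ind u * (c + h u) - mean (fun u => ind u * (c + h u))) ^ 2) ≤
        mu * c + t * Real.sqrt (∑ u, h u ^ 2) := by
    intro c h hc _
    have hX : 0 ≤ ∑ u, h u ^ 2 := Finset.sum_nonneg fun u _ => sq_nonneg _
    have hxx : Real.sqrt (∑ u, h u ^ 2) ^ 2 = ∑ u, h u ^ 2 := Real.sq_sqrt hX
    have hI2 : (∑ u, ind u * h u) ^ 2 ≤ (∑ u, ind u) * Real.sqrt (∑ u, h u ^ 2) ^ 2 := by
      rw [hxx]
      have := Finset.sum_mul_sq_le_sq_mul_sq univ ind h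
      simp_rw [hsq] at this
      exact this
    obtain ⟨s1, s2⟩ := step_bound hV hmu0 ht htt (Real.sqrt_nonneg _) hc hI1 hI10 hI2
    constructor
    · refine le_trans (le_of_eq ?_) s1
      unfold mean
      congr 1
      rw [Finset.mul_sum, ← Finset.sum_add_distrib]
      refine Finset.sum_congr rfl fun u _ => by ring
    · apply le_of_sq_le_sq _ (by positivity)
      refine le_trans ?_ s2
      rw [mul_pow, Real.sq_sqrt (Finset.sum_nonneg fun u _ => sq_nonneg _)]
      gcongr
      -- variance ≤ second moment ≤ expression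
      have hvar : ∀ g : V → ℝ, ∑ u, (g u - mean g) ^ 2 ≤ ∑ u, g u ^ 2 := by
        intro g
        have e1 : ∑ u, (g u - mean g) ^ 2 =
            ∑ u, g u ^ 2 - Fintype.card V * (mean g) ^ 2 := by
          have : ∀ u, (g u - mean g) ^ 2 = g u ^ 2 - 2 * mean g * g u + (mean g) ^ 2 := by
            intro u; ring
          simp_rw [this]
          rw [Finset.sum_add_distrib, Finset.sum_sub_distrib, ← Finset.mul_sum, sum_eq_mean g]
          simp
          ring
        rw [e1]
        have : 0 ≤ (Fintype.card V : ℝ) * (mean g) ^ 2 := by positivity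
        linarith
      refine (hvar _).trans ?_
      rw [hxx]
      have e2 : ∀ u, (ind u * (c + h u)) ^ 2 =
          c ^ 2 * ind u + 2 * c * (ind u * h u) + ind u * h u ^ 2 := by
        intro u
        have : (ind u * (c + h u)) ^ 2 = ind u ^ 2 * (c + h u) ^ 2 := by ring
        rw [this, hsq]; ring
      simp_rw [e2]
      rw [Finset.sum_add_distrib, Finset.sum_add_distrib, ← Finset.mul_sum, ← Finset.mul_sum]
      gcongr with u _
      rcases hind u with h' | h' <;> rw [h']
      · rw [zero_mul]; positivity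
      · rw [one_mul]
  induction l with
  | zero =>
    intro S
    have hG : G b ind 0 S = fun u => if S 0 then ind u else 1 := funext fun u => G_zero b ind S u
    rw [hG, cnt_zero]
    by_cases hS : S 0
    · simp only [hS, if_true, pow_one]
      have h0 := main 1 (fun _ => 0) (by norm_num) (by simp)
      simp only [add_zero, mul_one, ne_eq, OfNat.ofNat_ne_zero, not_false_eq_true, zero_pow,
        Finset.sum_const_zero, Real.sqrt_zero, mul_zero] at h0
      refine ⟨hmu0', h0.1.trans (by linarith), h0.2.trans (by linarith)⟩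
    · have hm : mean (fun _ : V => (1 : ℝ)) = 1 := by
        unfold mean; simp
      simp only [hS, Bool.false_eq_true, if_false, pow_zero, hm]
      refine ⟨by norm_num, le_refl _, ?_⟩
      simp
  | succ l ih =>
    intro S
    set S' : ℕ → Bool := fun i => S (i + 1) with hS'
    obtain ⟨i0, i1, i2⟩ := ih S'
    set g := G b ind l S' with hg
    have hG : G b ind (l + 1) S = fun u => (if S 0 then ind u else 1) * Av b g u :=
      funext fun u => G_succ b ind l S u
    have hβ : 0 ≤ mu + lam := by positivity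
    set β := mu + lam with hβdef
    have hx : Real.sqrt (∑ u, (Av b g u - mean g) ^ 2) ≤
        lam * Real.sqrt (∑ u, (g u - mean g) ^ 2) := by
      apply le_of_sq_le_sq _ (by positivity)
      rw [mul_pow, Real.sq_sqrt (Finset.sum_nonneg fun u _ => sq_nonneg _),
        Real.sq_sqrt (Finset.sum_nonneg fun u _ => sq_nonneg _)]
      exact hbias g
    have htx : t * Real.sqrt (∑ u, (Av b g u - mean g) ^ 2) ≤ lam * β ^ cnt l S' := by
      calc t * Real.sqrt (∑ u, (Av b g u - mean g) ^ 2)
          ≤ t * (lam * Real.sqrt (∑ u, (g u - mean g) ^ 2)) := by gcongr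
        _ = lam * (t * Real.sqrt (∑ u, (g u - mean g) ^ 2)) := by ring
        _ ≤ lam * β ^ cnt l S' := by gcongr
    rw [hG, cnt_succ]
    by_cases hS : S 0
    · simp only [hS, if_true]
      have hsum0 : ∑ u, (Av b g u - mean g) = 0 := by
        have := sum_sub_mean (Av b g)
        rwa [mean_Av] at this
      have h0 := main (mean g) (fun u => Av b g u - mean g) i0 hsum0
      have e1 : (fun u => ind u * (mean g + (Av b g u - mean g))) = fun u => ind u * Av b g u := by
        funext u; ring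
      have e2 : ∀ u, ind u * (mean g + (Av b g u - mean g)) = ind u * Av b g u := by
        intro u; ring
      rw [e1] at h0
      simp_rw [e2] at h0
      have hfin : mu * mean g + t * Real.sqrt (∑ u, (Av b g u - mean g) ^ 2) ≤
          β ^ (cnt l S' + 1) := by
        calc _ ≤ mu * β ^ cnt l S' + lam * β ^ cnt l S' := by gcongr
          _ = β ^ (cnt l S' + 1) := by rw [pow_succ, hβdef]; ring
      refine ⟨?_, h0.1.trans hfin, h0.2.trans hfin⟩
      have hnn : ∀ u, 0 ≤ ind u * Av b g u := by
        intro u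
        have hAv : 0 ≤ Av b g u := by
          unfold Av
          apply div_nonneg _ (by positivity)
          refine Finset.sum_nonneg fun e _ => ?_
          rw [hg]; unfold G
          apply div_nonneg _ (by positivity)
          refine Finset.sum_nonneg fun e' _ => Finset.prod_nonneg fun i _ => ?_
          split_ifs
          · rcases hind (pt b (u + b e) e' i) with h' | h' <;> rw [h']; norm_num
          · norm_num
        rcases hind u with h' | h' <;> rw [h']
        · simp
        · simpa using hAv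
      unfold mean
      exact div_nonneg (Finset.sum_nonneg fun u _ => hnn u) hV.le
    · simp only [hS, Bool.false_eq_true, if_false, one_mul, add_zero]
      have hm : mean (fun u => Av b g u) = mean g := mean_Av b g
      rw [hm]
      refine ⟨i0, i1, ?_⟩
      calc _ ≤ lam * β ^ cnt l S' := htx
        _ ≤ 1 * β ^ cnt l S' := by gcongr
        _ = _ := one_mul _

/-- number of seeds for which all points with index in `S` are bad -/
theorem walk_all [Nonempty E] (Bd : V → Prop) [DecidablePred Bd]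
    {mu lam : ℝ} (hmu : ((univ.filter Bd).card : ℝ) ≤ mu * Fintype.card V)
    (hlam0 : 0 ≤ lam) (hlam1 : lam ≤ 1)
    (hbias : ∀ f : V → ℝ, ∑ u, (Av b f u - mean f) ^ 2 ≤ lam ^ 2 * ∑ u, (f u - mean f) ^ 2)
    (l : ℕ) (S : Finset ℕ) (hS : S ⊆ range (l + 1)) :
    ((univ.filter fun ω : V × (Fin l → E) => ∀ i ∈ S, Bd (pt b ω.1 ω.2 i)).card : ℝ) ≤
      (mu + lam) ^ S.card * (Fintype.card V * (Fintype.card E : ℝ) ^ l) := by
  classical
  have hV : (0 : ℝ) < (Fintype.card V : ℝ) := by exact_mod_cast Fintype.card_pos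
  have hE : (0 : ℝ) < (Fintype.card E : ℝ) := by exact_mod_cast Fintype.card_pos
  have hmu0 : 0 ≤ mu := by
    by_contra hcon
    push Not at hcon
    have : mu * Fintype.card V < 0 := mul_neg_of_neg_of_pos hcon hV
    have h2 : (0 : ℝ) ≤ ((univ.filter Bd).card : ℝ) := by positivity
    linarith
  set ind : V → ℝ := fun u => if Bd u then 1 else 0 with hind
  have hmean : mean ind ≤ mu := by
    unfold mean
    rw [div_le_iff₀ hV]
    have : ∑ u, ind u = ((univ.filter Bd).card : ℝ) := by
      simp [hind]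
    rw [this]; exact hmu
  have h01 : ∀ u, ind u = 0 ∨ ind u = 1 := by
    intro u; by_cases h : Bd u <;> simp [hind, h]
  obtain ⟨_, hb, _⟩ := G_bound b ind h01 hmean hlam0 hlam1 hbias
    (t := Real.sqrt (mu / Fintype.card V)) (Real.sqrt_nonneg _)
    (Real.sq_sqrt (by positivity)) l (fun i => decide (i ∈ S))
  have hcnt : cnt l (fun i => decide (i ∈ S)) = S.card := by
    unfold cnt
    congr 1
    ext i
    simp only [decide_eq_true_eq, Finset.mem_filter]
    exact ⟨fun h => h.2, fun h => ⟨hS h, h⟩⟩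
  rw [hcnt] at hb
  have hsum : ((univ.filter fun ω : V × (Fin l → E) => ∀ i ∈ S, Bd (pt b ω.1 ω.2 i)).card : ℝ) =
      mean (G b ind l (fun i => decide (i ∈ S))) * (Fintype.card V * (Fintype.card E : ℝ) ^ l) := by
    unfold mean G
    rw [← Finset.sum_div, div_div, mul_comm ((Fintype.card E : ℝ) ^ l), div_mul_cancel₀ _ (by positivity)]
    rw [Finset.card_filter]
    push_cast
    rw [Fintype.sum_prod_type]
    refine Finset.sum_congr rfl fun u _ => Finset.sum_congr rfl fun e _ => ?_
    simp only [decide_eq_true_eq]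
    rw [← Finset.prod_filter]
    have hf : (range (l + 1)).filter (fun i => i ∈ S) = S := by
      ext i
      simp only [Finset.mem_filter]
      exact ⟨fun h => h.2, fun h => ⟨hS h, h⟩⟩
    rw [hf]
    by_cases hall : ∀ i ∈ S, Bd (pt b u e i)
    · rw [if_pos hall, Finset.prod_eq_one]
      intro i hi
      simp [hind, hall i hi]
    · rw [if_neg hall]
      push Not at hall
      obtain ⟨i, hi, hi'⟩ := hall
      rw [Finset.prod_eq_zero hi]
      simp [hind, hi']
  rw [hsum]
  gcongr

/-- number of seeds for which at least `k` of the `l+1` points are bad -/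
theorem walk_many [Nonempty E] (Bd : V → Prop) [DecidablePred Bd]
    {mu lam : ℝ} (hmu : ((univ.filter Bd).card : ℝ) ≤ mu * Fintype.card V)
    (hlam0 : 0 ≤ lam) (hlam1 : lam ≤ 1)
    (hbias : ∀ f : V → ℝ, ∑ u, (Av b f u - mean f) ^ 2 ≤ lam ^ 2 * ∑ u, (f u - mean f) ^ 2)
    (l k : ℕ) :
    ((univ.filter fun ω : V × (Fin l → E) =>
        k ≤ ((range (l + 1)).filter fun i => Bd (pt b ω.1 ω.2 i)).card).card : ℝ) ≤
      2 ^ (l + 1) * (mu + lam) ^ k * (Fintype.card V * (Fintype.card E : ℝ) ^ l) := by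
  classical
  have hV : (0 : ℝ) < (Fintype.card V : ℝ) := by exact_mod_cast Fintype.card_pos
  have hE : (0 : ℝ) < (Fintype.card E : ℝ) := by exact_mod_cast Fintype.card_pos
  have hmu0 : 0 ≤ mu := by
    by_contra hcon
    push Not at hcon
    have : mu * Fintype.card V < 0 := mul_neg_of_neg_of_pos hcon hV
    have h2 : (0 : ℝ) ≤ ((univ.filter Bd).card : ℝ) := by positivity
    linarith
  have hsub : (univ.filter fun ω : V × (Fin l → E) =>
        k ≤ ((range (l + 1)).filter fun i => Bd (pt b ω.1 ω.2 i)).card) ⊆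
      (powersetCard k (range (l + 1))).biUnion fun S =>
        univ.filter fun ω : V × (Fin l → E) => ∀ i ∈ S, Bd (pt b ω.1 ω.2 i) := by
    intro ω hω
    simp only [Finset.mem_filter, Finset.mem_univ, true_and] at hω
    obtain ⟨S, hS1, hS2⟩ := Finset.exists_subset_card_eq hω
    simp only [Finset.mem_biUnion, Finset.mem_powersetCard, Finset.mem_filter, Finset.mem_univ,
      true_and]
    refine ⟨S, ⟨fun i hi => (Finset.mem_filter.1 (hS1 hi)).1, hS2⟩, fun i hi =>
      (Finset.mem_filter.1 (hS1 hi)).2⟩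
  calc ((univ.filter fun ω : V × (Fin l → E) =>
        k ≤ ((range (l + 1)).filter fun i => Bd (pt b ω.1 ω.2 i)).card).card : ℝ)
      ≤ (((powersetCard k (range (l + 1))).biUnion fun S =>
        univ.filter fun ω : V × (Fin l → E) => ∀ i ∈ S, Bd (pt b ω.1 ω.2 i)).card : ℝ) := by
        exact_mod_cast Finset.card_le_card hsub
    _ ≤ ∑ S ∈ powersetCard k (range (l + 1)),
        ((univ.filter fun ω : V × (Fin l → E) => ∀ i ∈ S, Bd (pt b ω.1 ω.2 i)).card : ℝ) := by
        exact_mod_cast Finset.card_biUnion_le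
    _ ≤ ∑ S ∈ powersetCard k (range (l + 1)),
        (mu + lam) ^ k * (Fintype.card V * (Fintype.card E : ℝ) ^ l) := by
        refine Finset.sum_le_sum fun S hS => ?_
        rw [Finset.mem_powersetCard] at hS
        have := walk_all b Bd hmu hlam0 hlam1 hbias l S hS.1
        rwa [hS.2] at this
    _ = ((l + 1).choose k : ℝ) * ((mu + lam) ^ k * (Fintype.card V * (Fintype.card E : ℝ) ^ l)) := by
        rw [Finset.sum_const, Finset.card_powersetCard, Finset.card_range, nsmul_eq_mul]
    _ ≤ 2 ^ (l + 1) * ((mu + lam) ^ k * (Fintype.card V * (Fintype.card E : ℝ) ^ l)) := by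
        gcongr
        exact_mod_cast Nat.choose_le_two_pow (l + 1) k
    _ = _ := by ring

end P313.H931
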