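import Mathlib
import Vale.Agent.P313.H931.Walk
import Vale.Agent.P313.H931.Pair
import Vale.Agent.P313.H931.Chunk

/-!
# The sampler of the BPL algorithm (block D)

Seeds: a start point `u ∈ F_Q^{2D}` and `l` small-bias steps `e_j ∈ F_Q^2`.
At every point of the walk we average over the `Q` points of a line, reduced chunkwise to tape
contents.  For every finite family of functions and all translations by tape contents
simultaneously, all but few seeds have the property that fewer than `k` of the `l+1` averages are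
off by more than `eps`.
-/

namespace P313.H931

open Finset

variable {Q : ℕ} [Fact Q.Prime]

/-- seeds of the sampler -/
abbrev Seed (Q D l : ℕ) : Type := (Fin (D + D) → ZMod Q) × (Fin l → ZMod Q × ZMod Q)

/-- the `j`-th point of the walk -/
def wpt {D l : ℕ} (ω : Seed Q D l) (j : ℕ) : Fin (D + D) → ZMod Q :=
  pt (bv (D + D)) ω.1 ω.2 j

/-- the `j`-th estimate, at tape content `τ` -/
noncomputable def est {D l : ℕ} (q c0 L : ℕ) (f : (Fin L → ZMod q) → ℝ) (τ : Fin L → ZMod q)
    (ω : Seed Q D l) (j : ℕ) : ℝ :=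
  (∑ s : ZMod Q, f (τ + smp q c0 L (ln (wpt ω j) s))) / Q

lemma mean_translate {q L : ℕ} [NeZero q] (f : (Fin L → ZMod q) → ℝ) (τ : Fin L → ZMod q) :
    mean (fun y => f (τ + y)) = mean f := by
  unfold mean
  congr 1
  exact Fintype.sum_equiv (Equiv.addLeft τ) _ _ (fun u => rfl)

/-- the small-bias contraction in the form needed by the walk -/
lemma bias_Av (m : ℕ) (f : (Fin m → ZMod Q) → ℝ) :
    ∑ u, (Av (bv m) f u - mean f) ^ 2 ≤ ((m : ℝ) / Q) ^ 2 * ∑ u, (f u - mean f) ^ 2 := by
  have h : ∀ u, Av (bv m) f u = avg f u := by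
    intro u
    unfold Av avg
    congr 1
    simp [ZMod.card, pow_two]
  simp_rw [h]
  exact bias f

/-- one function, one tape content -/
theorem sampler_one (q c0 L D l k : ℕ) [NeZero q] (hc0 : 0 < c0) (hL : L ≤ c0 * D)
    (hDQ : D + D ≤ Q)
    (f : (Fin L → ZMod q) → ℝ) {B eps : ℝ} (hf0 : ∀ y, 0 ≤ f y) (hfB : ∀ y, f y ≤ B)
    (heps : 0 < eps) (τ : Fin L → ZMod q) :
    ((univ.filter fun ω : Seed Q D l => k ≤ ((range (l + 1)).filter fun j =>
        eps + B * ((1 + (q : ℝ) ^ c0 / Q) ^ D - 1) < |est q c0 L f τ ω j - mean f|).card).card : ℝ) ≤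
      2 ^ (l + 1) * (B ^ 2 / (eps ^ 2 * Q) + ((D + D : ℕ) : ℝ) / Q) ^ k *
        Fintype.card (Seed Q D l) := by
  classical
  have hQ : (0 : ℝ) < (Q : ℝ) := by exact_mod_cast (Fact.out : Q.Prime).pos
  set F : (Fin D → ZMod Q) → ℝ := fun a => f (τ + smp q c0 L a) with hF
  have hmean : |mean F - mean f| ≤ B * ((1 + (q : ℝ) ^ c0 / Q) ^ D - 1) := by
    have := mean_smp (Q := Q) q c0 L D hc0 hL (fun y => f (τ + y)) (fun y => hf0 _) (fun y => hfB _)
    rwa [mean_translate] at this
  have hcheb := cheb F (B := B) (eps := eps) (fun w => hf0 _) (fun w => hfB _) heps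
  have hwalk := walk_many (bv (D + D)) (fun u => eps < |lest F u - mean F|) hcheb
    (lam := ((D + D : ℕ) : ℝ) / Q) (by positivity)
    (by rw [div_le_one hQ]; exact_mod_cast hDQ)
    (fun f => bias_Av (D + D) f) l k
  have hcard : (Fintype.card (Seed Q D l) : ℝ) = Fintype.card (Fin (D + D) → ZMod Q) *
      (Fintype.card (ZMod Q × ZMod Q) : ℝ) ^ l := by
    rw [Fintype.card_prod]
    simp
  rw [hcard]
  refine le_trans ?_ hwalk
  have hsub : (univ.filter fun ω : Seed Q D l => k ≤ ((range (l + 1)).filter fun j =>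
        eps + B * ((1 + (q : ℝ) ^ c0 / Q) ^ D - 1) < |est q c0 L f τ ω j - mean f|).card) ⊆
      univ.filter fun ω : (Fin (D + D) → ZMod Q) × (Fin l → ZMod Q × ZMod Q) =>
        k ≤ ((range (l + 1)).filter fun i =>
          eps < |lest F (pt (bv (D + D)) ω.1 ω.2 i) - mean F|).card := by
    intro ω hω
    rw [Finset.mem_filter] at hω ⊢
    refine ⟨Finset.mem_univ _, hω.2.trans (Finset.card_le_card ?_)⟩
    intro j hj
    rw [Finset.mem_filter] at hj ⊢
    refine ⟨hj.1, ?_⟩
    have h1 : est q c0 L f τ ω j = lest F (pt (bv (D + D)) ω.1 ω.2 j) := rfl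
    have h2 := hj.2
    rw [h1] at h2
    by_contra hcon
    push Not at hcon
    have h3 : |lest F (pt (bv (D + D)) ω.1 ω.2 j) - mean f| ≤
        |lest F (pt (bv (D + D)) ω.1 ω.2 j) - mean F| + |mean F - mean f| := by
      have := abs_add_le (lest F (pt (bv (D + D)) ω.1 ω.2 j) - mean F) (mean F - mean f)
      rwa [sub_add_sub_cancel] at this
    linarith
  exact_mod_cast Finset.card_le_card hsub

/-- **the sampler**: union bound over a finite family of functions and all tape contents -/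
theorem sampler (q c0 L D l k : ℕ) [NeZero q] (hc0 : 0 < c0) (hL : L ≤ c0 * D)
    (hDQ : D + D ≤ Q) {ι : Type*} [Fintype ι]
    (f : ι → (Fin L → ZMod q) → ℝ) {B eps : ℝ} (hf0 : ∀ i y, 0 ≤ f i y) (hfB : ∀ i y, f i y ≤ B)
    (heps : 0 < eps) :
    ((univ.filter fun ω : Seed Q D l => ∃ i : ι, ∃ τ : Fin L → ZMod q,
        k ≤ ((range (l + 1)).filter fun j => eps + B * ((1 + (q : ℝ) ^ c0 / Q) ^ D - 1) <
          |est q c0 L (f i) τ ω j - mean (f i)|).card).card : ℝ) ≤
      Fintype.card ι * (q : ℝ) ^ L *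
        (2 ^ (l + 1) * (B ^ 2 / (eps ^ 2 * Q) + ((D + D : ℕ) : ℝ) / Q) ^ k) *
        Fintype.card (Seed Q D l) := by
  classical
  have hsub : (univ.filter fun ω : Seed Q D l => ∃ i : ι, ∃ τ : Fin L → ZMod q,
        k ≤ ((range (l + 1)).filter fun j => eps + B * ((1 + (q : ℝ) ^ c0 / Q) ^ D - 1) <
          |est q c0 L (f i) τ ω j - mean (f i)|).card) ⊆
      (univ : Finset (ι × (Fin L → ZMod q))).biUnion fun p =>
        univ.filter fun ω : Seed Q D l => k ≤ ((range (l + 1)).filter fun j =>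
          eps + B * ((1 + (q : ℝ) ^ c0 / Q) ^ D - 1) <
            |est q c0 L (f p.1) p.2 ω j - mean (f p.1)|).card := by
    intro ω hω
    rw [Finset.mem_filter] at hω
    obtain ⟨_, i, τ, h⟩ := hω
    rw [Finset.mem_biUnion]
    exact ⟨(i, τ), Finset.mem_univ _, Finset.mem_filter.2 ⟨Finset.mem_univ _, h⟩⟩
  calc _ ≤ (((univ : Finset (ι × (Fin L → ZMod q))).biUnion fun p =>
        univ.filter fun ω : Seed Q D l => k ≤ ((range (l + 1)).filter fun j =>
          eps + B * ((1 + (q : ℝ) ^ c0 / Q) ^ D - 1) <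
            |est q c0 L (f p.1) p.2 ω j - mean (f p.1)|).card).card : ℝ) := by
        exact_mod_cast Finset.card_le_card hsub
    _ ≤ ∑ p : ι × (Fin L → ZMod q), ((univ.filter fun ω : Seed Q D l =>
          k ≤ ((range (l + 1)).filter fun j => eps + B * ((1 + (q : ℝ) ^ c0 / Q) ^ D - 1) <
            |est q c0 L (f p.1) p.2 ω j - mean (f p.1)|).card).card : ℝ) := by
        exact_mod_cast Finset.card_biUnion_le
    _ ≤ ∑ _p : ι × (Fin L → ZMod q), 2 ^ (l + 1) *
          (B ^ 2 / (eps ^ 2 * Q) + ((D + D : ℕ) : ℝ) / Q) ^ k * Fintype.card (Seed Q D l) := by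
        refine Finset.sum_le_sum fun p _ => ?_
        exact sampler_one q c0 L D l k hc0 hL hDQ (f p.1) (hf0 p.1) (hfB p.1) heps p.2
    _ = _ := by
        rw [Finset.sum_const, Finset.card_univ, nsmul_eq_mul, Fintype.card_prod]
        have : Fintype.card (Fin L → ZMod q) = q ^ L := by simp [ZMod.card]
        rw [this]
        push_cast
        ring

end P313.H931
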