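import Mathlib
import Vale.Agent.P313.H931.Sampler

/-!
# Numeric form of the sampler (block D / F2)

All objects are computed with natural numbers: `pw` (powers mod `Q`), `uco` (coordinates of the
points of the walk), `lco` (coordinates of the points of the line), `sdg` (digits of the sample).
-/

namespace P313.H931

open Finset

/-- `x ^ k mod Q` -/
def pw (Q x k : ℕ) : ℕ := (fun r => r * x % Q)^[k] (1 % Q)

/-- coordinate `k` of the `j`-th point of the walk; the digits `w c`, `c < 2 D`, are the start,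
`w (2 D + 2 i)`, `w (2 D + 2 i + 1)` are the pair `(x, y)` of step `i` -/
def uco (Q D : ℕ) (w : ℕ → ℕ) (k j : ℕ) : ℕ :=
  Nat.rec (w k % Q) (fun i r => (r + w (2 * D + 2 * i + 1) * pw Q (w (2 * D + 2 * i)) k) % Q) j

/-- coordinate `c` of point `s` of the line -/
def lco (Q D : ℕ) (w : ℕ → ℕ) (j s c : ℕ) : ℕ :=
  (uco Q D w c j + s * uco Q D w (D + c) j) % Q

/-- digit `i` of the sample -/
def sdg (q c0 Q D : ℕ) (w : ℕ → ℕ) (j s i : ℕ) : ℕ :=
  if i / c0 < D then (fun r => r / q)^[i % c0] (lco Q D w j s (i / c0)) % q else 0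

lemma iterate_div (q r t : ℕ) : (fun r => r / q)^[t] r = r / q ^ t := by
  induction t with
  | zero => simp
  | succ t ih =>
    rw [Function.iterate_succ_apply', ih, Nat.div_div_eq_div_mul, pow_succ]

/-- the seed given by digits -/
def seedOf (Q D l : ℕ) (w : ℕ → ℕ) : Seed Q D l :=
  (fun c => (w c : ZMod Q), fun i => ((w (2 * D + 2 * i) : ZMod Q),
    (w (2 * D + 2 * i + 1) : ZMod Q)))

lemma sdg_lt' {Q D q : ℕ} (hq : 0 < q) (c0 : ℕ) (w : ℕ → ℕ) (j s i : ℕ) :
    sdg q c0 Q D w j s i < q := by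
  unfold sdg
  split_ifs
  · exact Nat.mod_lt _ hq
  · exact hq

section

variable {Q : ℕ} [Fact Q.Prime] {D l : ℕ}

lemma pw_cast (x k : ℕ) : (pw Q x k : ZMod Q) = (x : ZMod Q) ^ k := by
  unfold pw
  induction k with
  | zero => simp
  | succ k ih =>
    rw [Function.iterate_succ_apply', ZMod.natCast_mod, Nat.cast_mul, ih, pow_succ]

lemma uco_lt (w : ℕ → ℕ) (k j : ℕ) : uco Q D w k j < Q := by
  have hQ : 0 < Q := (Fact.out : Q.Prime).pos
  cases j with
  | zero => exact Nat.mod_lt _ hQ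
  | succ j => exact Nat.mod_lt _ hQ

lemma lco_lt (w : ℕ → ℕ) (j s c : ℕ) : lco Q D w j s c < Q :=
  Nat.mod_lt _ (Fact.out : Q.Prime).pos

lemma uco_cast (w : ℕ → ℕ) (k : Fin (D + D)) (j : ℕ) (hj : j ≤ l) :
    (uco Q D w k j : ZMod Q) = wpt (seedOf Q D l w) j k := by
  induction j with
  | zero => simp [uco, wpt, seedOf]
  | succ j ih =>
    have ih' := ih (by omega)
    have h1 : uco Q D w k (j + 1) =
        (uco Q D w k j + w (2 * D + 2 * j + 1) * pw Q (w (2 * D + 2 * j)) k) % Q := rfl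
    rw [h1, ZMod.natCast_mod, Nat.cast_add, ih', Nat.cast_mul, pw_cast]
    unfold wpt pt
    have h2 : (univ.filter fun i : Fin l => i.val < j + 1) =
        insert (⟨j, by omega⟩ : Fin l) (univ.filter fun i : Fin l => i.val < j) := by
      ext i
      simp only [Finset.mem_filter, Finset.mem_univ, true_and, Finset.mem_insert, Fin.ext_iff]
      omega
    rw [h2, Finset.sum_insert (by simp)]
    simp only [Pi.add_apply, seedOf, bv]
    ring

lemma lco_eq (w : ℕ → ℕ) (j s : ℕ) (c : Fin D) (hj : j ≤ l) :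
    lco Q D w j s c = (ln (wpt (seedOf Q D l w) j) (s : ZMod Q) c).val := by
  unfold lco ln
  rw [← ZMod.val_natCast, ← uco_cast w (Fin.castAdd D c) j hj, ← uco_cast w (Fin.natAdd D c) j hj]
  simp only [Nat.cast_add, Nat.cast_mul, Fin.val_castAdd, Fin.val_natAdd]

lemma sdg_eq (q c0 : ℕ) (w : ℕ → ℕ) (j s i : ℕ) (hj : j ≤ l) :
    sdg q c0 Q D w j s i = dig q c0 (ln (wpt (seedOf Q D l w) j) (s : ZMod Q)) i := by
  unfold sdg dig
  split_ifs with h
  · rw [iterate_div, lco_eq w j s ⟨i / c0, h⟩ hj]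
  · rfl

end

/-! ### Tapes -/

/-- tape contents as functions on `ℕ` -/
def tapeOf {q L : ℕ} (y : Fin L → ZMod q) : ℕ → ℕ := fun j => if h : j < L then (y ⟨j, h⟩).val else 0

/-- the content of a valid tape -/
def ofTape (q L : ℕ) (τ : ℕ → ℕ) : Fin L → ZMod q := fun i => (τ i : ZMod q)

/-- valid tapes -/
def TVal (q L : ℕ) (τ : ℕ → ℕ) : Prop := (∀ j < L, τ j < q) ∧ ∀ j, L ≤ j → τ j = 0

lemma tapeOf_valid {q L : ℕ} [NeZero q] (y : Fin L → ZMod q) : TVal q L (tapeOf y) := by
  constructor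
  · intro j hj
    simp only [tapeOf, hj, dif_pos]
    exact ZMod.val_lt _
  · intro j hj
    simp only [tapeOf]
    rw [dif_neg (by omega)]

lemma tapeOf_ofTape {q L : ℕ} {τ : ℕ → ℕ} (h : TVal q L τ) : tapeOf (ofTape q L τ) = τ := by
  funext j
  by_cases hj : j < L
  · simp only [tapeOf, hj, dif_pos, ofTape]
    exact ZMod.val_cast_of_lt (h.1 j hj)
  · simp only [tapeOf]
    rw [dif_neg hj, h.2 j (by omega)]

lemma ofTape_tapeOf {q L : ℕ} [NeZero q] (y : Fin L → ZMod q) : ofTape q L (tapeOf y) = y := by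
  funext i
  simp [ofTape, tapeOf]

/-- the tape shifted by the digits `g` -/
def shT (q L : ℕ) (τ : ℕ → ℕ) (g : ℕ → ℕ) : ℕ → ℕ := fun i => if i < L then (τ i + g i) % q else τ i

lemma shT_valid {q L : ℕ} (hq : 0 < q) {τ : ℕ → ℕ} (h : TVal q L τ) (g : ℕ → ℕ) :
    TVal q L (shT q L τ g) := by
  constructor
  · intro j hj
    simp only [shT, hj, if_true]
    exact Nat.mod_lt _ hq
  · intro j hj
    simp only [shT]
    rw [if_neg (by omega), h.2 j hj]

lemma shT_undo {q L : ℕ} {τ : ℕ → ℕ} (h : TVal q L τ) (g : ℕ → ℕ) (hg : ∀ i, g i < q) :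
    shT q L (shT q L τ g) (fun i => q - g i) = τ := by
  funext i
  by_cases hi : i < L
  · simp only [shT, hi, if_true]
    have h1 := h.1 i hi
    have h2 := hg i
    rw [Nat.add_mod, Nat.mod_mod, ← Nat.add_mod]
    have : τ i + g i + (q - g i) = τ i + q := by omega
    rw [this, Nat.add_mod_right, Nat.mod_eq_of_lt h1]
  · simp only [shT, hi, if_false]

lemma ofTape_shT {q L : ℕ} (τ g : ℕ → ℕ) :
    ofTape q L (shT q L τ g) = ofTape q L τ + fun i : Fin L => (g i : ZMod q) := by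
  funext i
  simp [ofTape, shT]

section

variable {Q : ℕ} [Fact Q.Prime] {D l : ℕ}

/-- the estimate in numeric form -/
lemma est_num (q c0 L : ℕ) [NeZero q] (F : (ℕ → ℕ) → ℝ) (w : ℕ → ℕ) (τ : ℕ → ℕ)
    (hτ : TVal q L τ) (j : ℕ) (hj : j ≤ l) :
    est q c0 L (fun y => F (tapeOf y)) (ofTape q L τ) (seedOf Q D l w) j =
      (∑ s ∈ range Q, F (shT q L τ (fun i => sdg q c0 Q D w j s i))) / Q := by
  have hQ : 0 < Q := (Fact.out : Q.Prime).pos
  have hq : 0 < q := Nat.pos_of_ne_zero (NeZero.ne q)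
  have : NeZero Q := ⟨hQ.ne'⟩
  unfold est
  congr 1
  refine Finset.sum_nbij' (fun s : ZMod Q => s.val) (fun s => (s : ZMod Q)) ?_ ?_ ?_ ?_ ?_
  · intro s _
    exact Finset.mem_range.2 (ZMod.val_lt s)
  · intro s _
    exact Finset.mem_univ _
  · intro s _
    exact ZMod.natCast_zmod_val s
  · intro s hs
    exact ZMod.val_cast_of_lt (Finset.mem_range.1 hs)
  intro s _
  have hs : ((s.val : ℕ) : ZMod Q) = s := ZMod.natCast_zmod_val s
  have h1 : ofTape q L τ + smp q c0 L (ln (wpt (seedOf Q D l w) j) s) =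
      ofTape q L (shT q L τ (fun i => sdg q c0 Q D w j s.val i)) := by
    rw [ofTape_shT]
    congr 1
    funext i
    rw [sdg_eq (l := l) q c0 w j _ _ hj, hs]
    rfl
  rw [h1]
  show F (tapeOf (ofTape q L _)) = _
  rw [tapeOf_ofTape (shT_valid hq hτ _)]

/-- numeric seeds -/
def numSeed (Q D l : ℕ) (ω : ℕ) : Seed Q D l := seedOf Q D l (fun i => ω / Q ^ i % Q)

lemma digits_inj {Q N a b : ℕ} (ha : a < Q ^ N) (hb : b < Q ^ N)
    (h : ∀ i < N, a / Q ^ i % Q = b / Q ^ i % Q) : a = b := by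
  have h1 : finFunctionFinEquiv.symm (⟨a, ha⟩ : Fin (Q ^ N)) =
      finFunctionFinEquiv.symm (⟨b, hb⟩ : Fin (Q ^ N)) := by
    funext i
    apply Fin.ext
    rw [finFunctionFinEquiv_symm_apply_val, finFunctionFinEquiv_symm_apply_val]
    exact h i i.2
  exact congrArg Fin.val (finFunctionFinEquiv.symm.injective h1)

lemma numSeed_injOn : Set.InjOn (numSeed Q D l) (range (Q ^ (2 * D + 2 * l)) : Set ℕ) := by
  have hQ : 0 < Q := (Fact.out : Q.Prime).pos
  intro a ha b hb hab
  rw [Finset.mem_coe, Finset.mem_range] at ha hb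
  refine digits_inj ha hb fun i hi => ?_
  have hval : ∀ u v : ℕ, ((u % Q : ℕ) : ZMod Q) = ((v % Q : ℕ) : ZMod Q) → u % Q = v % Q := by
    intro u v h
    rw [ZMod.natCast_eq_natCast_iff'] at h
    rwa [Nat.mod_mod, Nat.mod_mod] at h
  have h1 := congrArg Prod.fst hab
  have h2 := congrArg Prod.snd hab
  by_cases hi1 : i < 2 * D
  · have := congrFun h1 ⟨i, by omega⟩
    exact hval _ _ this
  · by_cases hpar : i % 2 = 0
    · have h3 := congrFun h2 ⟨(i - 2 * D) / 2, by omega⟩
      have h4 := congrArg Prod.fst h3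
      have e : 2 * D + 2 * ((i - 2 * D) / 2) = i := by omega
      simp only [numSeed, seedOf, e] at h4
      exact hval _ _ h4
    · have h3 := congrFun h2 ⟨(i - 2 * D) / 2, by omega⟩
      have h4 := congrArg Prod.snd h3
      have e : 2 * D + 2 * ((i - 2 * D) / 2) + 1 = i := by omega
      simp only [numSeed, seedOf, e] at h4
      exact hval _ _ h4

lemma card_Seed : Fintype.card (Seed Q D l) = Q ^ (2 * D + 2 * l) := by
  simp only [Seed, Fintype.card_prod, Fintype.card_fun, Fintype.card_fin, ZMod.card]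
  ring

/-- **the sampler, numeric form** -/
theorem sampler_num (q c0 L D l k : ℕ) [NeZero q] (hc0 : 0 < c0) (hL : L ≤ c0 * D)
    (hDQ : D + D ≤ Q) {ι : Type*} [Fintype ι]
    (F : ι → (ℕ → ℕ) → ℝ) {B eps : ℝ} (hF0 : ∀ i τ, TVal q L τ → 0 ≤ F i τ)
    (hFB : ∀ i τ, TVal q L τ → F i τ ≤ B) (heps : 0 < eps)
    (Bad : ℕ → Prop) [DecidablePred Bad]
    (hBad : ∀ ω, Bad ω → ∃ i τ, TVal q L τ ∧ k ≤ ((range (l + 1)).filter fun j =>
      eps + B * ((1 + (q : ℝ) ^ c0 / Q) ^ D - 1) <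
        |(∑ s ∈ range Q, F i (shT q L τ
          (fun t => sdg q c0 Q D (fun m => ω / Q ^ m % Q) j s t))) / Q -
          mean (fun y : Fin L → ZMod q => F i (tapeOf y))|).card) :
    (((range (Q ^ (2 * D + 2 * l))).filter Bad).card : ℝ) ≤
      Fintype.card ι * (q : ℝ) ^ L *
        (2 ^ (l + 1) * (B ^ 2 / (eps ^ 2 * Q) + ((D + D : ℕ) : ℝ) / Q) ^ k) *
        (Q : ℝ) ^ (2 * D + 2 * l) := by
  classical
  have hs := sampler (l := l) (k := k) q c0 L D hc0 hL hDQ (fun i y => F i (tapeOf y))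
    (fun i y => hF0 i _ (tapeOf_valid y)) (fun i y => hFB i _ (tapeOf_valid y)) heps
  rw [card_Seed] at hs
  push_cast at hs ⊢
  refine le_trans ?_ hs
  have : ((range (Q ^ (2 * D + 2 * l))).filter Bad).card ≤
      (univ.filter fun ω : Seed Q D l => ∃ i : ι, ∃ τ : Fin L → ZMod q,
        k ≤ ((range (l + 1)).filter fun j => eps + B * ((1 + (q : ℝ) ^ c0 / Q) ^ D - 1) <
          |est q c0 L (fun y => F i (tapeOf y)) τ ω j -
            mean (fun y : Fin L → ZMod q => F i (tapeOf y))|).card).card := by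
    apply Finset.card_le_card_of_injOn (numSeed Q D l)
    · intro ω hω
      rw [Finset.mem_coe, Finset.mem_filter] at hω
      obtain ⟨i, τ, hτ, hk⟩ := hBad ω hω.2
      rw [Finset.mem_coe, Finset.mem_filter]
      refine ⟨Finset.mem_univ _, i, ofTape q L τ, hk.trans (Finset.card_le_card ?_)⟩
      intro j hj
      rw [Finset.mem_filter] at hj ⊢
      refine ⟨hj.1, ?_⟩
      have hjl : j ≤ l := by
        have := Finset.mem_range.1 hj.1
        omega
      have he := est_num (Q := Q) (D := D) (l := l) q c0 L (F i) (fun m => ω / Q ^ m % Q) τ hτ j hjl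
      unfold numSeed
      rw [he]
      exact hj.2
    · intro a ha b hb hab
      have ha' : a ∈ (range (Q ^ (2 * D + 2 * l)) : Set ℕ) := by
        rw [Finset.mem_coe, Finset.mem_filter] at ha
        exact Finset.mem_coe.2 ha.1
      have hb' : b ∈ (range (Q ^ (2 * D + 2 * l)) : Set ℕ) := by
        rw [Finset.mem_coe, Finset.mem_filter] at hb
        exact Finset.mem_coe.2 hb.1
      exact numSeed_injOn ha' hb' hab
  exact_mod_cast this

end

end P313.H931
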