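import Vale.Agent.P313.H931.MeanL
import Vale.Agent.P313.H126.Good

/-!
# The mean of the flow over all tapes (MEAN, `mP` and `bP`)
-/

namespace Vale.Agent.P313.H931

open Finset Classical Vale.Agent.P313.H136 Vale.Agent.P313.BP
open _root_.P313.H931 (tapeOf)

variable (p : Par2) [hq0 : NeZero p.q]

/-- the flow at level `a` from state `v` as a function of tokens -/
noncomputable def gP (d : SD) (Z : ℕ → Prop) (a : ℕ) (v : Fin p.n) (y : TokS p d a) : ℝ :=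
  (sysc p d).Ts p.Lam {w : Fin p.n | Z w} a
    (fun u => if (sysc p d).stT a u = v then 1 else 0) y

theorem c_eq (d : SD) (Z : ℕ → Prop) (a v x z : ℕ) (t : Tp)
    (h : x < p.n ∧ z < (lay p d).q ^ (lay p d).c x) :
    (theTSem p).C d Z a v x z t =
      #{u : TokS p d a | (sysc p d).U a u = dec p d a ⟨x, h.1⟩ ⟨z, h.2⟩ t ∧
        (((sysc p d).stT a u : ℕ) = v ∨ p.n ≤ v) ∧ (sysc p d).ok {w : Fin p.n | Z w} a u} := by
  show (if h : x < p.n ∧ z < (lay p d).q ^ (lay p d).c x then _ else 0) = _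
  rw [dif_pos h]

theorem w_eq (d : SD) (a x z : ℕ) (t : Tp)
    (h : x < p.n ∧ z < (lay p d).q ^ (lay p d).c x) :
    (theTSem p).W d a x z t = (sysc p d).W a (dec p d a ⟨x, h.1⟩ ⟨z, h.2⟩ t) := by
  show (if h : x < p.n ∧ z < (lay p d).q ^ (lay p d).c x then _ else 0) = _
  rw [dif_pos h]

/-- `C ≤ W` -/
theorem c_le_w (d : SD) (Z : ℕ → Prop) (a v x z : ℕ) (t : Tp) :
    (theTSem p).C d Z a v x z t ≤ (theTSem p).W d a x z t := by
  by_cases h : x < p.n ∧ z < (lay p d).q ^ (lay p d).c x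
  · rw [c_eq p d Z a v x z t h, w_eq p d a x z t h]
    refine le_trans (Finset.card_le_card ?_) ((sysc p d).card_fib a _)
    intro u hu
    exact mem_filter.2 ⟨mem_univ _, (mem_filter.1 hu).2.1⟩
  · have : (theTSem p).C d Z a v x z t = 0 := by
      show (if h : x < p.n ∧ z < (lay p d).q ^ (lay p d).c x then _ else 0) = _
      rw [dif_neg h]
    rw [this]
    exact Nat.zero_le _

theorem cnt_le (d : SD) (Z : ℕ → Prop) (a v x z : ℕ) (t : Tp) :
    (theTSem p).cnt p.Lam d Z a v x z t ≤ p.Lam := by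
  unfold TSem.cnt
  split_ifs with h
  · exact (c_le_w p d Z a v x z t).trans h.le
  · exact Nat.zero_le _

theorem cnt_cast (d : SD) (Z : ℕ → Prop) (a : ℕ) (v : Fin p.n) (x z : ℕ) (t : Tp)
    (h : x < p.n ∧ z < (lay p d).q ^ (lay p d).c x) :
    ((theTSem p).cnt p.Lam d Z a v x z t : ℝ) =
      gP p d Z a v (dec p d a ⟨x, h.1⟩ ⟨z, h.2⟩ t) := by
  unfold TSem.cnt gP Sys.Ts
  rw [w_eq p d a x z t h, c_eq p d Z a v x z t h]
  set y := dec p d a ⟨x, h.1⟩ ⟨z, h.2⟩ t with hy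
  rw [← Finset.sum_filter, Finset.sum_const, nsmul_eq_mul, mul_one, Finset.filter_filter]
  split_ifs with hW
  · norm_cast
    congr 1
    ext u
    simp only [mem_filter, mem_univ, true_and]
    constructor
    · rintro ⟨h1, h2, h3⟩
      refine ⟨⟨h1, h3, by rw [h1]; exact hW⟩, ?_⟩
      rcases h2 with h2 | h2
      · exact Fin.ext h2
      · exact absurd h2 (Nat.not_le.2 v.2)
    · rintro ⟨⟨h1, h3, _⟩, h2⟩
      exact ⟨h1, Or.inl (congrArg Fin.val h2), h3⟩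
  · rw [Nat.cast_zero, eq_comm, Nat.cast_eq_zero, Finset.card_eq_zero, Finset.filter_eq_empty_iff]
    rintro u _ ⟨⟨h1, h3⟩, _⟩
    apply hW
    rw [← h1]
    exact h3.2

theorem P_formula (d : SD) (Z : ℕ → Prop) (a : ℕ) (v x : Fin p.n) (μ : ℝ) :
    (sysc p d).P μ p.Lam {w : Fin p.n | Z w} a v x =
      (μ / (p.q : ℝ) ^ (310 * a) * ∑ u : TokS p d a,
        if (lay p d).st a u = x then gP p d Z a v u else 0) /
        (μ * (p.q : ℝ) ^ (lay p d).c v) := by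
  have hwt : (sysc p d).wt μ a = μ / (p.q : ℝ) ^ (310 * a) := by
    unfold Sys.wt
    rw [card_lab]
    push_cast
    rw [← pow_mul]
    rfl
  rw [Sys.P_eq, hh_eq]
  congr 1
  rw [← Finset.mul_sum, hwt, Finset.sum_filter]
  congr 1
  refine Finset.sum_congr rfl fun u _ => ?_
  have e : (sysc p d).stT a u = (lay p d).st a u := H205.Lay.stT_sys _ _ _ _
  rw [e]
  have e2 : (sysc p d).Ts p.Lam {w : Fin p.n | Z w} a
      (fun u => if (sysc p d).stT a u = v then 1 else 0) u = gP p d Z a v u := by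
    unfold gP
    congr
  by_cases hux : (lay p d).st a u = x
  · refine (if_pos hux).trans (Eq.trans ?_ (if_pos hux).symm)
    convert e2
  · exact (if_neg hux).trans (if_neg hux).symm

theorem sum_cnt (d : SD) (Z : ℕ → Prop) {a : ℕ} (ha : a ≤ p.r) (v x : Fin p.n) {μ : ℝ}
    (hμ : μ ≠ 0) :
    ∑ z ∈ range ((lay p d).q ^ (lay p d).c x), ∑ y : Fin p.L → ZMod p.q,
      ((theTSem p).cnt p.Lam d Z a v x z (tapeOf y) : ℝ) =
      (p.q : ℝ) ^ p.L * ((p.q : ℝ) ^ (lay p d).c v *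
        (sysc p d).P μ p.Lam {w : Fin p.n | Z w} a v x) := by
  have hq : (p.q : ℝ) ≠ 0 := Nat.cast_ne_zero.2 (NeZero.ne p.q)
  have hL : 10 * (lay p d).t * a ≤ p.L := by
    show 10 * 31 * a ≤ 310 * p.r
    omega
  have h1 := sum_dec (Y := lay p d) hL x (gP p d Z a v)
  have h2 : ∑ z ∈ range ((lay p d).q ^ (lay p d).c x), ∑ y : Fin p.L → ZMod p.q,
      ((theTSem p).cnt p.Lam d Z a v x z (tapeOf y) : ℝ) =
      ∑ z : Fin ((lay p d).q ^ (lay p d).c x), ∑ y : Fin p.L → ZMod (lay p d).q,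
        gP p d Z a v ((lay p d).dec a x z (tapeOf y)) := by
    rw [Finset.sum_range]
    refine Finset.sum_congr rfl fun z _ => Finset.sum_congr rfl fun y _ => ?_
    exact cnt_cast p d Z a v x z (tapeOf y) ⟨x.2, z.2⟩
  rw [h2, P_formula]
  have h3 : ((lay p d).q : ℝ) = (p.q : ℝ) := rfl
  have h4 : 10 * (lay p d).t * a = 310 * a := rfl
  rw [h3, h4] at h1
  have h5 : (p.q : ℝ) ^ (310 * a) ≠ 0 := pow_ne_zero _ hq
  have h7 : (p.q : ℝ) ^ (lay p d).c v ≠ 0 := pow_ne_zero _ hq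
  have h6 : (p.q : ℝ) ^ p.L * ∑ u : TokS p d a,
      (if (lay p d).st a u = x then gP p d Z a v u else 0) =
      (∑ z : Fin ((lay p d).q ^ (lay p d).c x), ∑ y : Fin p.L → ZMod (lay p d).q,
        gP p d Z a v ((lay p d).dec a x z (tapeOf y))) * (p.q : ℝ) ^ (310 * a) := by
    rw [h1]
    congr 1
    refine Finset.sum_congr rfl fun u _ => ?_
    congr
  set A := ∑ z : Fin ((lay p d).q ^ (lay p d).c x), ∑ y : Fin p.L → ZMod (lay p d).q,
        gP p d Z a v ((lay p d).dec a x z (tapeOf y)) with hA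
  set Bs := ∑ u : TokS p d a, (if (lay p d).st a u = x then gP p d Z a v u else 0) with hBs
  have h8 : A = (p.q : ℝ) ^ p.L * Bs / (p.q : ℝ) ^ (310 * a) := by
    rw [eq_div_iff h5]
    exact h6.symm
  rw [h8]
  field_simp

/-- **the mean of the flow** -/
theorem mean_flow (d : SD) (Z : ℕ → Prop) (hc : ∀ x < p.n, d.c x ≤ p.cmax) {a v x : ℕ}
    (ha : a ≤ p.r) (hv : v < p.n) (hx : x < p.n) :
    (∑ y : Fin p.L → ZMod p.q, (flow p (theTSem p) d Z a v x (tapeOf y) : ℝ)) =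
      (p.q : ℝ) ^ p.L * ((p.q : ℝ) ^ d.c v * (theSem p).P d Z a v x) := by
  have hq : (p.q : ℝ) ≠ 0 := Nat.cast_ne_zero.2 (NeZero.ne p.q)
  have hcx : (lay p d).c x = d.c x := min_eq_left (hc x hx)
  have hcv : (lay p d).c (⟨v, hv⟩ : Fin p.n) = d.c v := min_eq_left (hc v hv)
  have hμ : (1 / (p.q : ℝ) ^ p.b) ≠ 0 := one_div_ne_zero (pow_ne_zero _ hq)
  have h1 : ∀ y : Fin p.L → ZMod p.q, (flow p (theTSem p) d Z a v x (tapeOf y) : ℝ) =
      ∑ z ∈ range ((lay p d).q ^ (lay p d).c x),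
        ((theTSem p).cnt p.Lam d Z a v x z (tapeOf y) : ℝ) := by
    intro y
    unfold flow
    rw [hcx]
    push_cast
    rfl
  rw [Finset.sum_congr rfl fun y _ => h1 y, Finset.sum_comm]
  have h2 := sum_cnt p d Z ha ⟨v, hv⟩ ⟨x, hx⟩ hμ
  refine h2.trans ?_
  rw [hcv]
  have h3 : (theSem p).P d Z a v x = (sysc p d).P (1 / (p.q : ℝ) ^ p.b) p.Lam
      {w : Fin p.n | Z w} a ⟨v, hv⟩ ⟨x, hx⟩ := by
    show (if h : v < p.n ∧ x < p.n then _ else 0) = _
    rw [dif_pos ⟨hv, hx⟩]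
  rw [h3]

/-- bound for the flow -/
theorem flow_le (d : SD) (Z : ℕ → Prop) (hc : ∀ x < p.n, d.c x ≤ p.cmax) {a v x : ℕ}
    (ha : a < p.r) (hx : x < p.n) (t : Tp) :
    flow p (theTSem p) d Z a v x t ≤ p.r * (p.q ^ p.cmax * p.Lam ^ 2) := by
  unfold flow
  calc ∑ z ∈ range (p.q ^ d.c x), (theTSem p).cnt p.Lam d Z a v x z t ≤
      ∑ _z ∈ range (p.q ^ d.c x), p.Lam := Finset.sum_le_sum fun z _ => cnt_le p d Z a v x z t
    _ = p.q ^ d.c x * p.Lam := by simp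
    _ ≤ p.q ^ p.cmax * p.Lam ^ 2 := by
        gcongr
        · exact Nat.pos_of_ne_zero (NeZero.ne p.q)
        · exact hc x hx
        · exact Nat.le_self_pow (by norm_num) _
    _ ≤ p.r * (p.q ^ p.cmax * p.Lam ^ 2) := Nat.le_mul_of_pos_left _ (by omega)

/-- **MEAN** -/
theorem meanOK {VD : SD → Prop} (hVD : ∀ d, VD d → ∀ x < p.n, d.c x ≤ p.cmax) :
    H126.MeanOK p (theSem p) (theTSem p) VD (p.r * (p.q ^ p.cmax * p.Lam ^ 2)) where
  mP d hd Z _ ha _ hv _ hx := mean_flow p d Z (hVD d hd) ha.le hv hx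
  mL d hd Z _ hx := mean_loss p d Z (hVD d hd) hx
  bP d hd Z _ ha _ _ _ hx t _ := flow_le p d Z (hVD d hd) ha hx t
  bL d hd Z _ hx t _ := lossT_le p d Z (hVD d hd) hx t

end Vale.Agent.P313.H931
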