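import Vale.Agent.P313.H931.Phase
import Vale.Agent.P313.H899.Master

/-!
# Block F2: the goals of the master induction
-/

namespace Vale.Agent.P313.H931

open Finset Vale.Agent.P313.CT
open Vale.Agent.P313.BP (Par2 SD TSem Sem Tp q1 q2 q3 q4 e2 e3 vq phVal Ans TpOk ptN lnN dgN
  sumJ upN flow lossT avgV avgL phData phT0 phPJ0 phT2 phPJ2 phLT phLJ)
open Vale.Agent.P313.H899 (Ctx)

variable {C : Ctx} {E : Env}

/-- Numerical hypotheses of block F2. -/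
structure Num2 (C : Ctx) (E : Env) : Prop where
  qpos : 0 < C.p.q
  Qpos : 0 < C.p.Q
  rpos : 0 < C.p.r
  Lampos : 0 < C.p.Lam
  c0pos : 0 < C.p.c0
  Lc : C.p.L ≤ C.p.DC * C.p.c0
  DCB : C.p.DC * C.p.c0 ≤ E.B
  sumB : C.p.Q * (C.p.r * (C.p.q ^ C.p.cmax * C.p.Lam ^ 2)) ≤ E.B
  /-- the number of alive leaves -/
  cnt : ∀ s < C.p.S, ∀ (Z : ℕ → Prop), ∀ a < C.p.r, ∀ v < C.p.n, ∀ x < C.p.n,
    ∀ z < C.p.q ^ (C.dt s).c x, ∀ t, TpOk C.p t →
    C.T.cnt C.p.Lam (C.dt s) Z a v x z t ≤ C.p.Lam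
  /-- the number of two-phase alive leaves -/
  lo : ∀ s < C.p.S, ∀ (Z : ℕ → Prop), ∀ a < C.p.r, ∀ x < C.p.n,
    ∀ z < C.p.q ^ (C.dt s).c x, ∀ t, TpOk C.p t → C.T.Lo (C.dt s) Z a x z t ≤ C.p.Lam ^ 2

theorem Num2.qc (hn : Num2 C E) : C.p.q ^ C.p.cmax ≤ E.B := by
  refine le_trans ?_ hn.sumB
  calc C.p.q ^ C.p.cmax = 1 * (1 * (C.p.q ^ C.p.cmax * 1)) := by ring
    _ ≤ C.p.Q * (C.p.r * (C.p.q ^ C.p.cmax * C.p.Lam ^ 2)) := by
      gcongr
      · exact hn.Qpos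
      · exact hn.rpos
      · exact Nat.one_le_pow _ _ hn.Lampos

theorem epar (h : C.Hyp E) (hn : Num2 C E) : EPar E C.p C.w := by
  have hst : ∀ j < 64, E.st j ≤ E.B := fun j hj => h.stB j (by unfold BP.stW; omega)
  refine
    { hw := h.w, hL := h.L, s1 := h.s1, s3 := h.s3, s7 := h.s7, s10 := h.s10, s14 := h.s14,
      s15 := h.s15, s16 := h.s16, s19 := h.s19, s20 := h.s20, qpos := hn.qpos, Qpos := hn.Qpos,
      c0pos := hn.c0pos, qB := ?_, rB := ?_, DB := ?_, ThB := ?_, QB := ?_, DCB := hn.DCB,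
      DC1 := ?_, c0B := ?_, mB := ?_, SB := ?_, L := hn.Lc, seed := ?_ }
  · rw [← h.s1]; exact hst 1 (by omega)
  · rw [← h.s3]; exact hst 3 (by omega)
  · rw [← h.s7]; exact hst 7 (by omega)
  · rw [← h.s10]; exact hst 10 (by omega)
  · rw [← h.s14]; exact hst 14 (by omega)
  · rw [← h.s15]; exact hst 15 (by omega)
  · rw [← h.s16]; exact hst 16 (by omega)
  · rw [← h.s19]; exact hst 19 (by omega)
  · rw [← h.s20]; exact hst 20 (by omega)
  · intro i hi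
    have h1 := h.seed i hi
    have h2 := h.stB (BP.stW C.p.S + i) (by omega)
    rw [h1] at h2
    exact ⟨h1, h2⟩

theorem ans_of_right (h : C.Hyp E) {V : Orc} {s ph : ℕ} (hs : s < C.p.S) (hph : ph < C.p.m)
    (hV : C.Right V (s * C.p.m + ph)) :
    Ans C.p C.S C.T C.w (C.dt s) (C.o s 0) (C.o s 1) (C.o s 2)
      (fun ph q t => ask (inp E V t) (s * C.p.m + ph) q) ph :=
  fun _ hph' _ hq _ ht => Ctx.Right.ask_stage h hs hph hV hph' hq ht

theorem pow_c (h : C.Hyp E) (hn : Num2 C E) {s : ℕ} (hs : s < C.p.S) :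
    ∀ y < C.p.n, C.p.q ^ (C.dt s).c y ≤ E.B := fun y hy =>
  (Nat.pow_le_pow_right hn.qpos ((h.dtOk s hs.le).cm y hy)).trans hn.qc

theorem level_le {C : Ctx} {s ph : ℕ} (hs : s < C.p.S) (hph : ph < C.p.m) :
    s * C.p.m + ph ≤ C.p.S * C.p.m := by
  calc s * C.p.m + ph ≤ s * C.p.m + C.p.m := by omega
    _ = (s + 1) * C.p.m := by ring
    _ ≤ C.p.S * C.p.m := Nat.mul_le_mul_right _ hs

theorem sumJ_flow_le (h : C.Hyp E) (hn : Num2 C E) {s : ℕ} (hs : s < C.p.S) (Z : ℕ → Prop)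
    {a v x : ℕ} (ha : a < C.p.r) (hv : v < C.p.n) (hx : x < C.p.n) {t : Tp} (ht : TpOk C.p t)
    (j : ℕ) : sumJ C.p C.w j (flow C.p C.T (C.dt s) Z a v x) t ≤ E.B := by
  have hE := epar h hn
  refine le_trans ?_ hn.sumB
  unfold sumJ
  have h1 : ∀ σ ∈ range C.p.Q, flow C.p C.T (C.dt s) Z a v x (BP.shT C.p C.w j σ t) ≤
      C.p.r * (C.p.q ^ C.p.cmax * C.p.Lam ^ 2) := by
    intro σ _
    unfold flow
    calc ∑ z ∈ range (C.p.q ^ (C.dt s).c x), C.T.cnt C.p.Lam (C.dt s) Z a v x z _ ≤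
        ∑ _z ∈ range (C.p.q ^ (C.dt s).c x), C.p.Lam := Finset.sum_le_sum fun z hz =>
          hn.cnt s hs Z a ha v hv x hx z (Finset.mem_range.1 hz) _ (hE.shT_ok ht j σ)
      _ = C.p.q ^ (C.dt s).c x * C.p.Lam := by simp
      _ ≤ C.p.q ^ C.p.cmax * C.p.Lam ^ 2 := by
          gcongr
          · exact hn.qpos
          · exact (h.dtOk s hs.le).cm x hx
          · exact Nat.le_self_pow (by norm_num) _
      _ ≤ C.p.r * (C.p.q ^ C.p.cmax * C.p.Lam ^ 2) := Nat.le_mul_of_pos_left _ hn.rpos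
  calc _ ≤ ∑ _σ ∈ range C.p.Q, C.p.r * (C.p.q ^ C.p.cmax * C.p.Lam ^ 2) := Finset.sum_le_sum h1
    _ = _ := by simp

theorem sumJ_loss_le (h : C.Hyp E) (hn : Num2 C E) {s : ℕ} (hs : s < C.p.S) (Z : ℕ → Prop)
    {x : ℕ} (hx : x < C.p.n) {t : Tp} (ht : TpOk C.p t) (j : ℕ) :
    sumJ C.p C.w j (lossT C.p C.T (C.dt s) Z x) t ≤ E.B := by
  have hE := epar h hn
  refine le_trans ?_ hn.sumB
  unfold sumJ
  have h1 : ∀ σ ∈ range C.p.Q, lossT C.p C.T (C.dt s) Z x (BP.shT C.p C.w j σ t) ≤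
      C.p.r * (C.p.q ^ C.p.cmax * C.p.Lam ^ 2) := by
    intro σ _
    unfold lossT
    calc ∑ a ∈ range C.p.r, ∑ z ∈ range (C.p.q ^ (C.dt s).c x), C.T.Lo (C.dt s) Z a x z _ ≤
        ∑ _a ∈ range C.p.r, ∑ _z ∈ range (C.p.q ^ (C.dt s).c x), C.p.Lam ^ 2 :=
          Finset.sum_le_sum fun a ha => Finset.sum_le_sum fun z hz =>
            hn.lo s hs Z a (Finset.mem_range.1 ha) x hx z (Finset.mem_range.1 hz) _
              (hE.shT_ok ht j σ)
      _ = C.p.r * (C.p.q ^ (C.dt s).c x * C.p.Lam ^ 2) := by simp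
      _ ≤ C.p.r * (C.p.q ^ C.p.cmax * C.p.Lam ^ 2) := by
          gcongr
          · exact hn.qpos
          · exact (h.dtOk s hs.le).cm x hx
  calc _ ≤ ∑ _σ ∈ range C.p.Q, C.p.r * (C.p.q ^ C.p.cmax * C.p.Lam ^ 2) := Finset.sum_le_sum h1
    _ = _ := by simp

/-- **Kind 3**: phase AVERAGE of kind `0`. -/
theorem avg0_goal (h : C.Hyp E) (hn : Num2 C E) {s : ℕ} (hs : s < C.p.S) :
    C.PGoal E (pjP 0) (s * C.p.m + phPJ0) := by
  have hE := epar h hn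
  have hm : phPJ0 < C.p.m := by unfold phPJ0 Par2.m BP.nph; omega
  intro V hV q hq t ht
  refine ⟨tp_pjP hE ht hq 0, fun hv => ?_⟩
  have hv' := (C.vl_eq hm).1 hv
  have hv2 := vq_PJ0.1 hv'
  have hval := h.vB _ (level_le hs hm) q hv t ht
  rw [C.pv_eq hm] at hval ⊢
  have hoff := h.off s hs 0 (by omega)
  rw [pj0_phase hE hm (ans_of_right h hs hm hV) hoff
    (by rw [← hoff]; exact h.stB _ (by unfold BP.stOff BP.stW; omega)) (pow_c h hn hs) hv' hq ht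
    (sumJ_flow_le h hn hs _ hv2.2.1 hv2.2.2.1 hv2.2.2.2 ht _)]
  exact min_eq_left hval

/-- **Kind 12**: phase AVERAGE of kind `2`. -/
theorem avg2_goal (h : C.Hyp E) (hn : Num2 C E) {s : ℕ} (hs : s < C.p.S) :
    C.PGoal E (pjP 2) (s * C.p.m + phPJ2 C.p.JF) := by
  have hE := epar h hn
  have hm : phPJ2 C.p.JF < C.p.m := by unfold phPJ2 Par2.m BP.nph; omega
  intro V hV q hq t ht
  refine ⟨tp_pjP hE ht hq 2, fun hv => ?_⟩
  have hv' := (C.vl_eq hm).1 hv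
  have hv2 := vq_PJ2.1 hv'
  have hval := h.vB _ (level_le hs hm) q hv t ht
  rw [C.pv_eq hm] at hval ⊢
  have hoff := h.off s hs 2 (by omega)
  rw [pj2_phase hE hm (ans_of_right h hs hm hV) hoff
    (by rw [← hoff]; exact h.stB _ (by unfold BP.stOff BP.stW; omega)) (pow_c h hn hs) hv' hq ht
    (sumJ_flow_le h hn hs _ hv2.2.1 hv2.2.2.1 hv2.2.2.2 ht _)]
  exact min_eq_left hval

/-- **Kind 9**: phase AVERAGE of the loss. -/
theorem lj_goal (h : C.Hyp E) (hn : Num2 C E) {s : ℕ} (hs : s < C.p.S) :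
    C.PGoal E ljP (s * C.p.m + phLJ C.p.JF) := by
  have hE := epar h hn
  have hm : phLJ C.p.JF < C.p.m := by unfold phLJ Par2.m BP.nph; omega
  intro V hV q hq t ht
  refine ⟨tp_ljP hE ht hq, fun hv => ?_⟩
  have hv' := (C.vl_eq hm).1 hv
  have hv2 := vq_LJ.1 hv'
  have hval := h.vB _ (level_le hs hm) q hv t ht
  rw [C.pv_eq hm] at hval ⊢
  have hoff := h.off s hs 1 (by omega)
  rw [lj_phase hE hm (ans_of_right h hs hm hV) hoff
    (by rw [← hoff]; exact h.stB _ (by unfold BP.stOff BP.stW; omega)) (pow_c h hn hs) hv' hq ht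
    (sumJ_loss_le h hn hs _ hv2.2 ht _)]
  exact min_eq_left hval

end Vale.Agent.P313.H931
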