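import Vale.Agent.P313.H931.AvgLF

/-!
# Block F2: the program for averages along a line

`avgP F R`: for every `s < Q` the digits of point `s` of line `j` are added to the tape, the value
`F level query` (a function with questions to lower levels at the current tape) is added to the
accumulator, and the digits are subtracted again; the result is `R level query sum`.
-/

namespace Vale.Agent.P313.H931

open Finset Vale.Agent.P313.CT
open _root_.P313.H931 (pw uco lco sdg shT TVal shT_undo shT_valid)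

/-- add a digit to cell `reg 6`, and increment register `6` -/
def cellB (dg : TS.Fn 3) : CP :=
  .seq (.set 7 3 (fun I a => (cell I (a 2) + dg I a) % stat I 1) ![10, 4, 6])
    (.seq (.wr 6 7) (.set 6 1 (fun _ a => a 0 + 1) ![6]))

/-- add digits to all cells -/
def shiftP (dg : TS.Fn 3) : CP := .seq (.set 6 0 (fun _ _ => 0) ![]) (.loop 9 (cellB dg))

/-- the complements of the digits -/
def sdN : TS.Fn 3 := fun I a => stat I 1 - sdF I a

/-- one point of the line -/
def lineB (F : TS.Inp → ℕ → ℕ → ℕ) : CP :=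
  .seq (shiftP sdF) (.seq (.set 5 3 (fun I a => a 2 + F I (a 0) (a 1)) ![0, 1, 5])
    (.seq (shiftP sdN) (.set 4 1 (fun _ a => a 0 + 1) ![4])))

/-- the program -/
def avgP (F : TS.Inp → ℕ → ℕ → ℕ) (R : TS.Inp → ℕ → ℕ → ℕ → ℕ) : CP :=
  .seq (.set 8 0 (fun I _ => stat I 14) ![]) (.seq (.set 9 0 (fun I _ => stat I 15 * stat I 16) ![])
    (.seq (.set 10 1 (fun _ a => (Nat.unpair (a 0)).1) ![1]) (.seq (.loop 8 (lineB F))
      (.set 2 3 (fun I a => R I (a 0) (a 1) (a 2)) ![0, 1, 5]))))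

theorem cellB_ok {dg : TS.Fn 3} (h : TS.LF dg) : (cellB dg).Ok :=
  ⟨((lf_cell (TS.LF.proj 2)).add h).mod (lf_stat (TS.LF.const 1)), trivial,
    (TS.LF.proj 0).add (TS.LF.const 1)⟩

theorem shiftP_ok {dg : TS.Fn 3} (h : TS.LF dg) : (shiftP dg).Ok :=
  ⟨TS.LF.const 0, cellB_ok h⟩

theorem lf_sdN : TS.LF sdN := (lf_stat (TS.LF.const 1)).sub lf_sdF

theorem avgP_ok {F : TS.Inp → ℕ → ℕ → ℕ} {R : TS.Inp → ℕ → ℕ → ℕ → ℕ}
    (hF : TS.LF (fun I a => F I (a 0) (a 1) : TS.Fn 2))
    (hR : TS.LF (fun I a => R I (a 0) (a 1) (a 2) : TS.Fn 3)) : (avgP F R).Ok := by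
  refine ⟨lf_stat (TS.LF.const 14), (lf_stat (TS.LF.const 15)).mul (lf_stat (TS.LF.const 16)),
    lf_unpair1 (TS.LF.proj 0), ⟨shiftP_ok lf_sdF, ?_, shiftP_ok lf_sdN,
      (TS.LF.proj 0).add (TS.LF.const 1)⟩, hR⟩
  exact (TS.LF.proj 2).add (TS.LF.comp2 hF (TS.LF.proj 0) (TS.LF.proj 1))

/-- What the program needs about the environment. -/
structure EOk (E : Env) (q c0 Q D : ℕ) : Prop where
  hw : E.w = q
  hq : E.st 1 = q
  qpos : 0 < q
  qB : q ≤ E.B
  hQ : E.st 14 = Q
  Qpos : 0 < Q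
  QB : Q ≤ E.B
  hD : E.st 15 = D
  DB : D ≤ E.B
  hc0 : E.st 16 = c0
  c0B : c0 ≤ E.B
  DcB : D * c0 ≤ E.B
  hL : E.L ≤ D * c0
  SB : E.st 20 ≤ E.B

/-- The digits of the seed, as seen by programs. -/
def wE (E : Env) (m : ℕ) : ℕ := min (E.st (64 + 3 * E.st 20 + m)) E.B

variable {E : Env} {V : Orc} {q c0 Q D : ℕ}

theorem sdF_inp (h : EOk E q c0 Q D) (t : CT.Tape) (a : Fin 3 → ℕ) :
    sdF (inp E V t) a = sdg q c0 Q D (wE E) (a 0) (a 1) (a 2) := by
  unfold sdF wE
  simp only [stat_inp, h.hq, h.hQ, h.hD, h.hc0]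
  rw [min_eq_left h.qB, min_eq_left h.QB, min_eq_left h.DB, min_eq_left h.c0B, min_eq_left h.SB,
    Nat.sub_add_cancel h.Qpos]

theorem sdN_inp (h : EOk E q c0 Q D) (t : CT.Tape) (a : Fin 3 → ℕ) :
    sdN (inp E V t) a = q - sdg q c0 Q D (wE E) (a 0) (a 1) (a 2) := by
  unfold sdN
  rw [sdF_inp h, stat_inp, h.hq, min_eq_left h.qB]

theorem den_cellB (h : EOk E q c0 Q D) {dg : TS.Fn 3} {g : ℕ} (s : St) (hT : TOk E s.tp)
    (hg : dg (inp E V s.tp) ![s.reg 10, s.reg 4, s.reg 6] = g) (h6 : s.reg 6 + 1 ≤ E.B) :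
    (den E V (cellB dg) s).reg 6 = s.reg 6 + 1 ∧
    (∀ r, r ≠ 6 → r ≠ 7 → (den E V (cellB dg) s).reg r = s.reg r) ∧
    (den E V (cellB dg) s).tp = fun i =>
      if i = s.reg 6 ∧ i < E.L then (s.tp i + g) % q else s.tp i := by
  have hargs : (fun j => s.reg ((![10, 4, 6] : Fin 3 → ℕ) j)) =
      ![s.reg 10, s.reg 4, s.reg 6] := by
    funext j; fin_cases j <;> rfl
  have hcell : s.tp (s.reg 6) ≤ E.B := by
    by_cases hL : s.reg 6 < E.L
    · have := hT.1 _ hL
      rw [h.hw] at this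
      exact this.le.trans h.qB
    · rw [hT.2 _ (by omega)]; exact Nat.zero_le _
  have hval : min ((cell (inp E V s.tp) (s.reg 6) + dg (inp E V s.tp)
      ![s.reg 10, s.reg 4, s.reg 6]) % stat (inp E V s.tp) 1) E.B = (s.tp (s.reg 6) + g) % q := by
    rw [cell_inp, stat_inp, h.hq, min_eq_left h.qB, min_eq_left hcell, hg]
    exact min_eq_left ((Nat.mod_lt _ h.qpos).le.trans h.qB)
  have h1 : den E V (.set 7 3 (fun I a => (cell I (a 2) + dg I a) % stat I 1) ![10, 4, 6]) s =
      s.set 7 ((s.tp (s.reg 6) + g) % q) := by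
    simp only [den]
    rw [hargs]
    congr 1
  have h2 : den E V (cellB dg) s =
      den E V (.set 6 1 (fun _ a => a 0 + 1) ![6]) (den E V (.wr 6 7)
        (s.set 7 ((s.tp (s.reg 6) + g) % q))) := by
    rw [← h1]; rfl
  have h67 : (6 : ℕ) ≠ 7 := by decide
  by_cases hL : s.reg 6 < E.L
  · have h3 : den E V (.wr 6 7) (s.set 7 ((s.tp (s.reg 6) + g) % q)) =
        ⟨(s.set 7 ((s.tp (s.reg 6) + g) % q)).reg,
          Function.update s.tp (s.reg 6) ((s.tp (s.reg 6) + g) % q)⟩ := by
      simp only [den, St.set_reg, Function.update_of_ne h67, hL, if_true, St.set_tp,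
        Function.update_self, h.hw, Nat.mod_mod]
    rw [h2, h3]
    refine ⟨?_, ?_, ?_⟩
    · simp only [den, St.set_reg, Function.update_self]
      show min (Function.update s.reg 7 _ 6 + 1) E.B = _
      rw [Function.update_of_ne h67]
      exact min_eq_left h6
    · intro r hr6 hr7
      simp only [den, St.set_reg, Function.update_of_ne hr6, Function.update_of_ne hr7]
    · simp only [den, St.set_tp]
      funext i
      by_cases hi : i = s.reg 6
      · subst hi; simp [hL]
      · simp [hi]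
  · have h3 : den E V (.wr 6 7) (s.set 7 ((s.tp (s.reg 6) + g) % q)) =
        s.set 7 ((s.tp (s.reg 6) + g) % q) := by
      simp only [den, St.set_reg, Function.update_of_ne h67, hL, if_false]
    rw [h2, h3]
    refine ⟨?_, ?_, ?_⟩
    · simp only [den, St.set_reg, Function.update_self]
      show min (Function.update s.reg 7 _ 6 + 1) E.B = _
      rw [Function.update_of_ne h67]
      exact min_eq_left h6
    · intro r hr6 hr7
      simp only [den, St.set_reg, Function.update_of_ne hr6, Function.update_of_ne hr7]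
    · simp only [den, St.set_tp]
      funext i
      by_cases hi : i = s.reg 6
      · subst hi; simp [hL]
      · simp [hi]

theorem tOk_iff (hw : E.w = q) {t : CT.Tape} : TOk E t ↔ TVal q E.L t := by
  unfold TOk TVal
  rw [hw]

theorem iter_cellB (h : EOk E q c0 Q D) {dg : TS.Fn 3} {g : ℕ → ℕ} {j s cnt : ℕ}
    (hg : ∀ t i, i < cnt → dg (inp E V t) ![j, s, i] = g i) (hcnt : cnt ≤ E.B)
    (s0 : St) (hT : TOk E s0.tp) (h10 : s0.reg 10 = j) (h4 : s0.reg 4 = s) (h6 : s0.reg 6 = 0) :
    ∀ m ≤ cnt, ((den E V (cellB dg))^[m] s0).reg 6 = m ∧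
      (∀ r, r ≠ 6 → r ≠ 7 → ((den E V (cellB dg))^[m] s0).reg r = s0.reg r) ∧
      ((den E V (cellB dg))^[m] s0).tp = fun i =>
        if i < m ∧ i < E.L then (s0.tp i + g i) % q else s0.tp i := by
  intro m
  induction m with
  | zero =>
    intro _
    refine ⟨h6, fun r _ _ => rfl, ?_⟩
    funext i
    simp
  | succ m ih =>
    intro hm
    obtain ⟨i1, i2, i3⟩ := ih (by omega)
    rw [Function.iterate_succ_apply']
    set s' := (den E V (cellB dg))^[m] s0 with hs'
    have hT' : TOk E s'.tp := by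
      rw [i3]
      constructor
      · intro i hi
        dsimp only
        split_ifs
        · rw [h.hw]; exact Nat.mod_lt _ h.qpos
        · exact hT.1 i hi
      · intro i hi
        dsimp only
        rw [if_neg (by omega)]
        exact hT.2 i hi
    obtain ⟨d1, d2, d3⟩ := den_cellB (V := V) h (dg := dg) (g := g m) s' hT'
      (by rw [i2 10 (by decide) (by decide), i2 4 (by decide) (by decide), i1, h10, h4]
          exact hg _ m (by omega)) (by rw [i1]; omega)
    refine ⟨by rw [d1, i1], fun r h6 h7 => by rw [d2 r h6 h7, i2 r h6 h7], ?_⟩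
    rw [d3, i1]
    funext i
    rw [i3]
    dsimp only
    by_cases hi : i = m
    · subst hi
      by_cases hL : i < E.L
      · simp [hL]
      · simp [hL]
    · by_cases hi2 : i < m
      · have : i < m + 1 := by omega
        simp [hi, hi2, this]
      · have : ¬ i < m + 1 := by omega
        simp [hi, hi2, this]

/-- shifting the tape -/
theorem den_shiftP (h : EOk E q c0 Q D) {dg : TS.Fn 3} {g : ℕ → ℕ} {j s : ℕ}
    (hg : ∀ t i, i < D * c0 → dg (inp E V t) ![j, s, i] = g i)
    (s0 : St) (hT : TOk E s0.tp) (h10 : s0.reg 10 = j) (h4 : s0.reg 4 = s)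
    (h9 : s0.reg 9 = D * c0) :
    (den E V (shiftP dg) s0).tp = shT q E.L s0.tp g ∧
    ∀ r, r ≠ 6 → r ≠ 7 → (den E V (shiftP dg) s0).reg r = s0.reg r := by
  have h1 : den E V (.set 6 0 (fun _ _ => 0) ![]) s0 = s0.set 6 0 := by
    simp [den]
  have h2 : den E V (shiftP dg) s0 = (den E V (cellB dg))^[D * c0] (s0.set 6 0) := by
    show den E V (.loop 9 (cellB dg)) (den E V (.set 6 0 (fun _ _ => 0) ![]) s0) = _
    rw [h1]
    simp only [den, St.set_reg]
    rw [Function.update_of_ne (by decide), h9]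
  obtain ⟨_, i2, i3⟩ := iter_cellB (V := V) h hg h.DcB (s0.set 6 0) hT
    (by simp only [St.set_reg]; rw [Function.update_of_ne (by decide), h10])
    (by simp only [St.set_reg]; rw [Function.update_of_ne (by decide), h4])
    (by simp only [St.set_reg, Function.update_self]) (D * c0) le_rfl
  rw [h2]
  refine ⟨?_, ?_⟩
  · rw [i3]
    funext i
    unfold shT
    by_cases hL : i < E.L
    · have : i < D * c0 := lt_of_lt_of_le hL h.hL
      simp [hL, this]
    · simp [hL]
  · intro r h6 h7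
    rw [i2 r h6 h7]
    simp only [St.set_reg]
    rw [Function.update_of_ne h6]

/-- one point of the line -/
theorem den_lineB (h : EOk E q c0 Q D) (F : TS.Inp → ℕ → ℕ → ℕ) {l q0 j s acc : ℕ} {t : CT.Tape}
    (s0 : St) (ht : s0.tp = t) (hT : TOk E t) (h0 : s0.reg 0 = l) (h1 : s0.reg 1 = q0)
    (h10 : s0.reg 10 = j) (h4 : s0.reg 4 = s) (h9 : s0.reg 9 = D * c0) (h5 : s0.reg 5 = acc)
    (hs : s + 1 ≤ E.B) :
    (den E V (lineB F) s0).tp = t ∧
    (den E V (lineB F) s0).reg 0 = l ∧ (den E V (lineB F) s0).reg 1 = q0 ∧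
    (den E V (lineB F) s0).reg 10 = j ∧ (den E V (lineB F) s0).reg 4 = s + 1 ∧
    (den E V (lineB F) s0).reg 9 = D * c0 ∧
    (den E V (lineB F) s0).reg 5 =
      min (acc + F (inp E V (shT q E.L t (fun i => sdg q c0 Q D (wE E) j s i))) l q0) E.B := by
  set g : ℕ → ℕ := fun i => sdg q c0 Q D (wE E) j s i with hgdef
  have hTV : TVal q E.L t := (tOk_iff h.hw).1 hT
  obtain ⟨a1, a2⟩ := den_shiftP (V := V) h (dg := sdF) (g := g) (j := j) (s := s)
    (fun t' i _ => by rw [sdF_inp h]; rfl) s0 (by rw [ht]; exact hT) h10 h4 h9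
  set s1 := den E V (shiftP sdF) s0 with hs1
  rw [ht] at a1
  have hT1 : TOk E s1.tp := by
    rw [a1]; exact (tOk_iff h.hw).2 (shT_valid h.qpos hTV g)
  -- accumulate
  have b1 : den E V (.set 5 3 (fun I a => a 2 + F I (a 0) (a 1)) ![0, 1, 5]) s1 =
      s1.set 5 (min (acc + F (inp E V (shT q E.L t g)) l q0) E.B) := by
    simp only [den]
    show s1.set 5 (min (s1.reg 5 + F (inp E V s1.tp) (s1.reg 0) (s1.reg 1)) E.B) = _
    rw [a2 5 (by decide) (by decide), a2 0 (by decide) (by decide),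
      a2 1 (by decide) (by decide), h5, h0, h1, a1]
  set s2 := s1.set 5 (min (acc + F (inp E V (shT q E.L t g)) l q0) E.B) with hs2
  have c2 : ∀ r, r ≠ 5 → s2.reg r = s1.reg r := by
    intro r hr
    simp only [hs2, St.set_reg]
    rw [Function.update_of_ne hr]
  obtain ⟨d1, d2⟩ := den_shiftP (V := V) h (dg := sdN) (g := fun i => q - g i) (j := j) (s := s)
    (fun t' i _ => by rw [sdN_inp h]; rfl) s2 (by exact hT1)
    (by rw [c2 10 (by decide), a2 10 (by decide) (by decide), h10])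
    (by rw [c2 4 (by decide), a2 4 (by decide) (by decide), h4])
    (by rw [c2 9 (by decide), a2 9 (by decide) (by decide), h9])
  set s3 := den E V (shiftP sdN) s2 with hs3
  have d1' : s3.tp = t := by
    rw [d1]
    show shT q E.L s1.tp (fun i => q - g i) = t
    rw [a1]
    exact shT_undo hTV g (fun i => _root_.P313.H931.sdg_lt' h.qpos c0 (wE E) j s i)
  have e1 : den E V (lineB F) s0 = s3.set 4 (s + 1) := by
    show den E V (.set 4 1 (fun _ a => a 0 + 1) ![4]) (den E V (shiftP sdN)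
      (den E V (.set 5 3 (fun I a => a 2 + F I (a 0) (a 1)) ![0, 1, 5])
        (den E V (shiftP sdF) s0))) = _
    rw [← hs1, b1, ← hs3]
    simp only [den]
    congr 1
    have : s3.reg ((![4] : Fin 1 → ℕ) 0) = s := by
      show s3.reg 4 = s
      rw [d2 4 (by decide) (by decide), c2 4 (by decide), a2 4 (by decide) (by decide), h4]
    rw [this]
    exact min_eq_left hs
  have f2 : ∀ r, r ≠ 4 → r ≠ 5 → r ≠ 6 → r ≠ 7 → (den E V (lineB F) s0).reg r = s0.reg r := by
    intro r h4 h5 h6 h7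
    rw [e1]
    simp only [St.set_reg]
    rw [Function.update_of_ne h4, d2 r h6 h7, c2 r h5, a2 r h6 h7]
  refine ⟨by rw [e1]; exact d1', by rw [f2 0 (by decide) (by decide) (by decide) (by decide), h0],
    by rw [f2 1 (by decide) (by decide) (by decide) (by decide), h1],
    by rw [f2 10 (by decide) (by decide) (by decide) (by decide), h10], ?_,
    by rw [f2 9 (by decide) (by decide) (by decide) (by decide), h9], ?_⟩
  · rw [e1]; simp only [St.set_reg, Function.update_self]
  · rw [e1]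
    simp only [St.set_reg]
    rw [Function.update_of_ne (by decide), d2 5 (by decide) (by decide)]
    simp only [hs2, St.set_reg, Function.update_self]

/-- the accumulator after `m` points -/
def accs (B : ℕ) (f : ℕ → ℕ) : ℕ → ℕ
  | 0 => 0
  | m + 1 => min (accs B f m + f m) B

theorem accs_eq {B : ℕ} {f : ℕ → ℕ} {m : ℕ} (h : ∑ s ∈ range m, f s ≤ B) :
    accs B f m = ∑ s ∈ range m, f s := by
  induction m with
  | zero => rfl
  | succ m ih =>
    rw [Finset.sum_range_succ] at h ⊢
    rw [accs, ih (by omega), min_eq_left h]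

/-- **the program for averages** -/
theorem den_avgP (h : EOk E q c0 Q D) (F : TS.Inp → ℕ → ℕ → ℕ)
    (R : TS.Inp → ℕ → ℕ → ℕ → ℕ) {l q0 : ℕ} {t : CT.Tape} (hT : TOk E t) (hq0 : q0 ≤ E.B) :
    (den E V (avgP F R) ⟨start l q0, t⟩).tp = t ∧
    (den E V (avgP F R) ⟨start l q0, t⟩).reg 2 = min (R (inp E V t) l q0
      (accs E.B (fun s => F (inp E V (shT q E.L t
        (fun i => sdg q c0 Q D (wE E) (Nat.unpair q0).1 s i))) l q0) Q)) E.B := by
  set j := (Nat.unpair q0).1 with hj
  set f : ℕ → ℕ := fun s => F (inp E V (shT q E.L t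
    (fun i => sdg q c0 Q D (wE E) j s i))) l q0 with hf
  have hjB : j ≤ E.B := (Nat.unpair_left_le q0).trans hq0
  -- initialisation
  set s0 : St := ((((⟨start l q0, t⟩ : St).set 8 Q).set 9 (D * c0)).set 10 j) with hs0
  have e0 : den E V (avgP F R) ⟨start l q0, t⟩ =
      den E V (.set 2 3 (fun I a => R I (a 0) (a 1) (a 2)) ![0, 1, 5])
        ((den E V (lineB F))^[Q] s0) := by
    have i1 : den E V (.set 8 0 (fun I _ => stat I 14) ![]) ⟨start l q0, t⟩ =
        (⟨start l q0, t⟩ : St).set 8 Q := by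
      simp only [den, stat_inp, h.hQ]
      rw [min_eq_left h.QB, min_eq_left h.QB]
    have i2 : ∀ s' : St, den E V (.set 9 0 (fun I _ => stat I 15 * stat I 16) ![]) s' =
        s'.set 9 (D * c0) := by
      intro s'
      simp only [den, stat_inp, h.hD, h.hc0]
      rw [min_eq_left h.DB, min_eq_left h.c0B, min_eq_left h.DcB]
    have i3 : den E V (.set 10 1 (fun _ a => (Nat.unpair (a 0)).1) ![1])
        (((⟨start l q0, t⟩ : St).set 8 Q).set 9 (D * c0)) = s0 := by
      simp only [den]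
      have : (((⟨start l q0, t⟩ : St).set 8 Q).set 9 (D * c0)).reg
          ((![1] : Fin 1 → ℕ) 0) = q0 := rfl
      rw [this, min_eq_left hjB]
    show den E V (.set 2 3 (fun I a => R I (a 0) (a 1) (a 2)) ![0, 1, 5])
      (den E V (.loop 8 (lineB F)) (den E V (.set 10 1 (fun _ a => (Nat.unpair (a 0)).1) ![1])
        (den E V (.set 9 0 (fun I _ => stat I 15 * stat I 16) ![])
          (den E V (.set 8 0 (fun I _ => stat I 14) ![]) ⟨start l q0, t⟩)))) = _
    rw [i1, i2, i3]
    rfl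
  have inv : ∀ m ≤ Q, ((den E V (lineB F))^[m] s0).tp = t ∧
      ((den E V (lineB F))^[m] s0).reg 0 = l ∧ ((den E V (lineB F))^[m] s0).reg 1 = q0 ∧
      ((den E V (lineB F))^[m] s0).reg 10 = j ∧ ((den E V (lineB F))^[m] s0).reg 4 = m ∧
      ((den E V (lineB F))^[m] s0).reg 9 = D * c0 ∧
      ((den E V (lineB F))^[m] s0).reg 5 = accs E.B f m := by
    intro m
    induction m with
    | zero =>
      intro _
      exact ⟨rfl, rfl, rfl, rfl, rfl, rfl, rfl⟩
    | succ m ih =>
      intro hm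
      obtain ⟨j1, j2, j3, j4, j5, j6, j7⟩ := ih (by omega)
      rw [Function.iterate_succ_apply']
      exact den_lineB (V := V) h F (acc := accs E.B f m) _ j1 hT j2 j3 j4 j5 j6 j7
        (by have := h.QB; omega)
  obtain ⟨j1, j2, j3, _, _, _, j7⟩ := inv Q le_rfl
  rw [e0]
  set s' := (den E V (lineB F))^[Q] s0 with hs'
  refine ⟨j1, ?_⟩
  simp only [den, St.set_reg, Function.update_self]
  show min (R (inp E V s'.tp) (s'.reg 0) (s'.reg 1) (s'.reg 5)) E.B = _
  rw [j1, j2, j3, j7]

end Vale.Agent.P313.H931
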