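import Vale.Agent.P313.CT.Lib
import Vale.Agent.P313.BP.Lay
import Vale.Agent.P313.H931.Num

/-!
# Block F2: the digits of the sample are computed in `TS.LF`
-/

namespace Vale.Agent.P313.H931

open Finset Vale.Agent.P313.CT
open _root_.P313.H931 (pw uco lco sdg)

variable {k : ℕ}

/-- powers modulo a positive number -/
theorem lf_pw {f g h : TS.Fn k} (hf : TS.LF f) (hg : TS.LF g) (hh : TS.LF h) :
    TS.LF (fun I a => pw (f I a + 1) (g I a) (h I a)) := by
  unfold pw
  refine TS.LF.iterate (f := fun I b => b 0 * g I (Fin.tail b) % (f I (Fin.tail b) + 1))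
    (g := fun I a => 1 % (f I a + 1)) (n := h)
    (((TS.LF.proj 0).mul hg.weak).mod (hf.weak.add (TS.LF.const 1)))
    ((TS.LF.const 1).mod (hf.add (TS.LF.const 1))) hh
    (fun I a => f I a + 1) ((hf.add (TS.LF.const 1)).pb) ?_
  intro I a i _
  cases i with
  | zero => exact (Nat.mod_lt _ (Nat.succ_pos _)).le
  | succ i =>
    rw [Function.iterate_succ_apply']
    exact (Nat.mod_lt _ (Nat.succ_pos _)).le

/-- coordinates of the points of the walk -/
theorem lf_uco {fQ fD fk fj : TS.Fn k} {w : TS.Inp → ℕ → ℕ} (hQ : TS.LF fQ) (hD : TS.LF fD)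
    (hw : TS.LF (fun I a => w I (a 0) : TS.Fn 1)) (hk : TS.LF fk) (hj : TS.LF fj) :
    TS.LF (fun I a => uco (fQ I a + 1) (fD I a) (w I) (fk I a) (fj I a)) := by
  unfold uco
  refine TS.LF.natRec' (g := fun I a => w I (fk I a) % (fQ I a + 1))
    (h := fun I b => (b 1 + w I (2 * fD I (Fin.tail (Fin.tail b)) + 2 * b 0 + 1) *
      pw (fQ I (Fin.tail (Fin.tail b)) + 1) (w I (2 * fD I (Fin.tail (Fin.tail b)) + 2 * b 0))
        (fk I (Fin.tail (Fin.tail b)))) % (fQ I (Fin.tail (Fin.tail b)) + 1))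
    (n := fj) hj ((TS.LF.comp1 hw hk).mod (hQ.add (TS.LF.const 1))) ?_
    (fun I a => fQ I a + 1) ((hQ.add (TS.LF.const 1)).pb) ?_
  · have e1 : TS.LF (fun I b => w I (2 * fD I (Fin.tail (Fin.tail b)) + 2 * b 0 + 1) :
        TS.Fn (k + 2)) :=
      TS.LF.comp1 hw ((((TS.LF.const 2).mul hD.weak.weak).add
        ((TS.LF.const 2).mul (TS.LF.proj 0))).add (TS.LF.const 1))
    have e2 : TS.LF (fun I b => w I (2 * fD I (Fin.tail (Fin.tail b)) + 2 * b 0) :
        TS.Fn (k + 2)) :=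
      TS.LF.comp1 hw (((TS.LF.const 2).mul hD.weak.weak).add ((TS.LF.const 2).mul (TS.LF.proj 0)))
    exact ((TS.LF.proj 1).add (e1.mul (lf_pw hQ.weak.weak e2 hk.weak.weak))).mod
      (hQ.weak.weak.add (TS.LF.const 1))
  · intro I a i _
    cases i with
    | zero => exact (Nat.mod_lt _ (Nat.succ_pos _)).le
    | succ i => exact (Nat.mod_lt _ (Nat.succ_pos _)).le

theorem lf_lco {fQ fD fj fs fc : TS.Fn k} {w : TS.Inp → ℕ → ℕ} (hQ : TS.LF fQ) (hD : TS.LF fD)
    (hw : TS.LF (fun I a => w I (a 0) : TS.Fn 1)) (hj : TS.LF fj) (hs : TS.LF fs)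
    (hc : TS.LF fc) :
    TS.LF (fun I a => lco (fQ I a + 1) (fD I a) (w I) (fj I a) (fs I a) (fc I a)) := by
  unfold lco
  exact ((lf_uco hQ hD hw hc hj).add (hs.mul (lf_uco hQ hD hw (hD.add hc) hj))).mod
    (hQ.add (TS.LF.const 1))

/-- repeated division -/
theorem lf_idiv {f g h : TS.Fn k} (hf : TS.LF f) (hg : TS.LF g) (hh : TS.LF h) :
    TS.LF (fun I a => (fun r => r / g I a)^[h I a] (f I a)) := by
  refine TS.LF.iterate (f := fun I b => b 0 / g I (Fin.tail b)) (g := f) (n := h)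
    ((TS.LF.proj 0).div hg.weak) hf hh (fun I a => f I a) hf.pb ?_
  intro I a i _
  show (fun r => r / g I a)^[i] (f I a) ≤ f I a
  rw [_root_.P313.H931.iterate_div]
  exact Nat.div_le_self _ _

theorem lf_sdg {fq fc0 fQ fD fj fs fi : TS.Fn k} {w : TS.Inp → ℕ → ℕ} (hq : TS.LF fq)
    (hc0 : TS.LF fc0) (hQ : TS.LF fQ) (hD : TS.LF fD)
    (hw : TS.LF (fun I a => w I (a 0) : TS.Fn 1)) (hj : TS.LF fj) (hs : TS.LF fs)
    (hi : TS.LF fi) :
    TS.LF (fun I a => sdg (fq I a) (fc0 I a) (fQ I a + 1) (fD I a) (w I) (fj I a) (fs I a)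
      (fi I a)) := by
  unfold sdg
  exact TS.LF.ite (TS.LFP.lt (hi.div hc0) hD)
    ((lf_idiv (lf_lco hQ hD hw hj hs (hi.div hc0)) hq (hi.mod hc0)).mod hq) (TS.LF.const 0)

/-- powers cut at a bound -/
def bpw (q c M : ℕ) : ℕ := (fun r => min (r * q) M)^[c] (min 1 M)

theorem lf_bpw {f g h : TS.Fn k} (hf : TS.LF f) (hg : TS.LF g) (hh : TS.LF h) :
    TS.LF (fun I a => bpw (f I a) (g I a) (h I a)) := by
  unfold bpw
  refine TS.LF.iterate (f := fun I b => min (b 0 * f I (Fin.tail b)) (h I (Fin.tail b)))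
    (g := fun I a => min 1 (h I a)) (n := g)
    (((TS.LF.proj 0).mul hf.weak).min hh.weak) ((TS.LF.const 1).min hh) hg
    (fun I a => h I a) hh.pb ?_
  intro I a i _
  cases i with
  | zero => exact min_le_right _ _
  | succ i =>
    rw [Function.iterate_succ_apply']
    exact min_le_right _ _

theorem bpw_eq {q c M : ℕ} (hq : 0 < q) (h : q ^ c ≤ M) : bpw q c M = q ^ c := by
  unfold bpw
  induction c with
  | zero => simpa using h
  | succ c ih =>
    have h1 : q ^ c ≤ M := (Nat.pow_le_pow_right hq (Nat.le_succ c)).trans h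
    rw [Function.iterate_succ_apply', ih h1, ← pow_succ, min_eq_left h]

theorem bpw_eq_min {q c M : ℕ} (hq : 0 < q) (_hM : 0 < M) : bpw q c M = min (q ^ c) M := by
  unfold bpw
  induction c with
  | zero => simp
  | succ c ih =>
    rw [Function.iterate_succ_apply', ih, pow_succ]
    rcases le_total (q ^ c) M with h | h
    · rw [min_eq_left h]
    · rw [min_eq_right h, min_eq_right (Nat.le_mul_of_pos_right M hq), min_eq_right]
      exact h.trans (Nat.le_mul_of_pos_right _ hq)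

/-! ### The digits in the layout of `BP.Lay` -/

/-- digit `i` of the sample at point `s` of line `j` -/
def sdF : TS.Fn 3 := fun I a =>
  sdg (stat I 1) (stat I 16) (stat I 14 - 1 + 1) (stat I 15)
    (fun m => stat I (64 + 3 * stat I 20 + m)) (a 0) (a 1) (a 2)

theorem lf_sdF : TS.LF sdF := by
  unfold sdF
  refine lf_sdg (w := fun I m => stat I (64 + 3 * stat I 20 + m)) (lf_stat (TS.LF.const 1))
    (lf_stat (TS.LF.const 16)) ((lf_stat (TS.LF.const 14)).sub (TS.LF.const 1))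
    (lf_stat (TS.LF.const 15)) ?_ (TS.LF.proj 0) (TS.LF.proj 1) (TS.LF.proj 2)
  exact lf_stat (((TS.LF.const 64).add ((TS.LF.const 3).mul (lf_stat (TS.LF.const 20)))).add
    (TS.LF.proj 0))

end Vale.Agent.P313.H931
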