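import Mathlib
import Vale.Agent.P313.H136.Lev

/-!
# Tapes and tokens: all tokens with given unlabelled part come from equally many tapes (MEAN)
-/

namespace Vale.Agent.P313.H931

open Finset Vale.Agent.P313.H136

section tok

variable {X Lb : Type}

/-- The token of level `0` under a token. -/
def base : (a : ℕ) → Tok X Lb a → X
  | 0, u => u
  | a + 1, u => base a u.1

/-- The token with given labels. -/
def mkT : (a : ℕ) → X → (Fin a → Lb) → Tok X Lb a
  | 0, x, _ => x
  | a + 1, x, l => (mkT a x (fun i => l i.castSucc), l (Fin.last a))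

/-- The labels of a token. -/
def labs : (a : ℕ) → Tok X Lb a → Fin a → Lb
  | 0, _ => Fin.elim0
  | a + 1, u => Fin.snoc (labs a u.1) u.2

theorem base_mkT (a : ℕ) (x : X) (l : Fin a → Lb) : base a (mkT a x l) = x := by
  induction a with
  | zero => rfl
  | succ a ih => exact ih _

theorem labs_mkT (a : ℕ) (x : X) (l : Fin a → Lb) : labs a (mkT a x l) = l := by
  induction a with
  | zero => funext i; exact i.elim0
  | succ a ih =>
    show Fin.snoc (labs a (mkT a x (fun i => l i.castSucc))) (l (Fin.last a)) = l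
    rw [ih]
    funext i
    refine Fin.lastCases ?_ (fun j => ?_) i
    · simp
    · simp

theorem mkT_labs (a : ℕ) (u : Tok X Lb a) : mkT a (base a u) (labs a u) = u := by
  induction a with
  | zero => rfl
  | succ a ih =>
    obtain ⟨u, l⟩ := u
    have h1 : (fun i : Fin a => (Fin.snoc (labs a u) l : Fin (a + 1) → Lb) i.castSucc) =
        labs a u := by
      funext i; simp
    have h2 : (Fin.snoc (labs a u) l : Fin (a + 1) → Lb) (Fin.last a) = l := by simp
    show (mkT a (base a u) (fun i : Fin a => (Fin.snoc (labs a u) l : Fin (a + 1) → Lb)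
      i.castSucc), (Fin.snoc (labs a u) l : Fin (a + 1) → Lb) (Fin.last a)) = (u, l)
    rw [h1, h2, ih]

/-- Tokens are pairs of an unlabelled token and labels. -/
def tokE (a : ℕ) : X × (Fin a → Lb) ≃ Tok X Lb a where
  toFun p := mkT a p.1 p.2
  invFun u := (base a u, labs a u)
  left_inv p := by simp only [base_mkT, labs_mkT]
  right_inv u := mkT_labs a u

end tok

/-! ### Labels read from a tape -/

section tape

variable {q : ℕ} {Lb : Type} [AddCommGroup Lb]

/-- A tape as digits, extended by zero. -/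
def ext {L : ℕ} (y : Fin L → ZMod q) : ℕ → ZMod q := fun j => if h : j < L then y ⟨j, h⟩ else 0

/-- The labels on a tape: block `i` consists of the cells `W i, ..., W i + W - 1`. -/
def labT (W : ℕ) (lab : (ℕ → ZMod q) → Lb) (a L : ℕ) (y : Fin L → ZMod q) : Fin a → Lb :=
  fun i => lab (fun j => ext y (W * i + j))

/-- Readers of labels: additive, depending on the first `W` cells only, and onto. -/
structure LabOk (W : ℕ) (lab : (ℕ → ZMod q) → Lb) : Prop where
  add : ∀ f g, lab (fun j => f j + g j) = lab f + lab g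
  loc : ∀ f g, (∀ j < W, f j = g j) → lab f = lab g
  onto : ∀ l, ∃ f, lab f = l

theorem ext_add {L : ℕ} (y y' : Fin L → ZMod q) (j : ℕ) :
    ext (y + y') j = ext y j + ext y' j := by
  unfold ext
  split_ifs
  · rfl
  · simp

theorem labT_add {W : ℕ} {lab : (ℕ → ZMod q) → Lb} (h : LabOk W lab) (a L : ℕ)
    (y y' : Fin L → ZMod q) : labT W lab a L (y + y') = labT W lab a L y + labT W lab a L y' := by
  funext i
  show lab _ = lab _ + lab _
  rw [← h.add]
  congr 1
  funext j
  exact ext_add y y' _

theorem labT_onto {W : ℕ} {lab : (ℕ → ZMod q) → Lb} (h : LabOk W lab) {a L : ℕ}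
    (hL : W * a ≤ L) (l : Fin a → Lb) : ∃ y, labT W lab a L y = l := by
  rcases Nat.eq_zero_or_pos W with hW | hW
  · refine ⟨0, ?_⟩
    funext i
    obtain ⟨f, hf⟩ := h.onto (l i)
    rw [← hf]
    exact h.loc _ _ (fun j hj => by omega)
  choose f hf using h.onto
  refine ⟨fun p => if hp : p.1 / W < a then f (l ⟨p.1 / W, hp⟩) (p.1 % W) else 0, ?_⟩
  funext i
  rw [← hf (l i)]
  refine h.loc _ _ (fun j hj => ?_)
  have h1 : W * i.1 + j < L := by
    have h2 : W * i.1 + W ≤ W * a := by
      calc W * i.1 + W = W * (i.1 + 1) := by ring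
        _ ≤ W * a := Nat.mul_le_mul_left _ i.2
    omega
  have h2 : (W * i.1 + j) / W = i.1 := by
    rw [Nat.mul_add_div hW, Nat.div_eq_of_lt hj, Nat.add_zero]
  have h3 : (W * i.1 + j) % W = j := by
    rw [Nat.mul_add_mod_self_left, Nat.mod_eq_of_lt hj]
  unfold ext
  rw [dif_pos h1]
  simp only [h2, h3, i.2, dif_pos, Fin.eta]

variable [NeZero q] [Fintype Lb] [DecidableEq Lb]

/-- every string of labels is read from equally many tapes -/
theorem card_labT {W : ℕ} {lab : (ℕ → ZMod q) → Lb} (h : LabOk W lab) {a L : ℕ}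
    (hL : W * a ≤ L) (l : Fin a → Lb) :
    (univ.filter fun y : Fin L → ZMod q => labT W lab a L y = l).card * Fintype.card Lb ^ a =
      q ^ L := by
  let φ : (Fin L → ZMod q) →+ (Fin a → Lb) :=
    AddMonoidHom.mk' (labT W lab a L) (labT_add h a L)
  have hr : ∀ l : Fin a → Lb, l ∈ Set.range φ := fun l => labT_onto h hL l
  have h1 : ∀ l' : Fin a → Lb, (univ.filter fun y => φ y = l').card =
      (univ.filter fun y => φ y = l).card := fun l' =>
    AddMonoidHom.card_fiber_eq_of_mem_range φ (hr l') (hr l)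
  have h2 : ∑ l' : Fin a → Lb, (univ.filter fun y => φ y = l').card =
      Fintype.card (Fin L → ZMod q) := by
    rw [← Finset.card_univ]
    exact (Finset.card_eq_sum_card_fiberwise (f := φ) (t := univ)
      (fun _ _ => Finset.mem_coe.2 (Finset.mem_univ _))).symm
  rw [Finset.sum_congr rfl (fun l' _ => h1 l'), Finset.sum_const, Finset.card_univ,
    smul_eq_mul] at h2
  have h3 : Fintype.card (Fin a → Lb) = Fintype.card Lb ^ a := by simp
  have h4 : Fintype.card (Fin L → ZMod q) = q ^ L := by simp [ZMod.card]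
  rw [h3, h4] at h2
  rw [mul_comm]
  exact h2

/-- **sums over tapes are sums over tokens** -/
theorem sum_tapes {X : Type} [Fintype X] {W : ℕ} {lab : (ℕ → ZMod q) → Lb} (h : LabOk W lab)
    {a L : ℕ} (hL : W * a ≤ L) (P : X → Prop) [DecidablePred P] (g : Tok X Lb a → ℝ) :
    (∑ x ∈ univ.filter P, ∑ y : Fin L → ZMod q, g (mkT a x (labT W lab a L y))) *
        (Fintype.card Lb : ℝ) ^ a =
      (q : ℝ) ^ L * ∑ u ∈ univ.filter (fun u : Tok X Lb a => P (base a u)), g u := by
  have h1 : ∀ x : X, (∑ y : Fin L → ZMod q, g (mkT a x (labT W lab a L y))) *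
      (Fintype.card Lb : ℝ) ^ a = (q : ℝ) ^ L * ∑ l : Fin a → Lb, g (mkT a x l) := by
    intro x
    rw [← Finset.sum_fiberwise (s := univ) (g := fun y => labT W lab a L y), Finset.sum_mul,
      Finset.mul_sum]
    refine Finset.sum_congr rfl fun l _ => ?_
    rw [Finset.sum_congr rfl (g := fun _ => g (mkT a x l)), Finset.sum_const, nsmul_eq_mul]
    · have h2 : ((univ.filter fun y : Fin L → ZMod q => labT W lab a L y = l).card : ℝ) *
          (Fintype.card Lb : ℝ) ^ a = (q : ℝ) ^ L := by exact_mod_cast card_labT h hL l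
      rw [← h2]
      ring
    · intro y hy
      rw [Finset.mem_filter] at hy
      rw [hy.2]
  rw [Finset.sum_mul, Finset.sum_congr rfl (fun x _ => h1 x), ← Finset.mul_sum]
  congr 1
  rw [Finset.sum_filter (s := univ) (p := fun u : Tok X Lb a => P (base a u)),
    ← (tokE a).sum_comp, Fintype.sum_prod_type, Finset.sum_filter]
  refine Finset.sum_congr rfl fun x _ => ?_
  show _ = ∑ l : Fin a → Lb, if P (base a (mkT a x l)) then g (mkT a x l) else 0
  simp_rw [base_mkT]
  split_ifs
  · rfl
  · simp

end tape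

end Vale.Agent.P313.H931
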