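import Vale.Agent.P313.H931.Fib
import Vale.Agent.P313.H931.Num
import Vale.Agent.P313.H205.Dec

/-!
# Sums over tapes and tokens for the concrete levels (MEAN)
-/

namespace Vale.Agent.P313.H931

open Finset Vale.Agent.P313.H136 Vale.Agent.P313.H205
open _root_.P313.H931 (tapeOf)

variable {Y : Lay}

theorem labOk : LabOk (10 * Y.t) Y.labOf where
  add f g := by
    unfold Lay.labOf
    rfl
  loc f g h := by
    unfold Lay.labOf
    congr 1
    · funext i
      exact h _ (by have := i.2; omega)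
    · funext o i
      exact h _ (by have := i.2; have := o.2; omega)
  onto l := ⟨Y.labDig l, Lay.labOf_labDig l⟩

theorem st_eq_base (a : ℕ) (u : Y.X a) : Y.st a u = (base a u).1 := by
  induction a with
  | zero => rfl
  | succ a ih => exact ih u.1

variable [NeZero Y.q]

theorem dec_eq_mkT {L : ℕ} (y : Fin L → ZMod Y.q) (a : ℕ) (w : Fin Y.n)
    (z : Fin (Y.q ^ Y.c w)) :
    Y.dec a w z (tapeOf y) = mkT a (⟨w, z⟩ : Y.X0) (labT (10 * Y.t) Y.labOf a L y) := by
  induction a with
  | zero => rfl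
  | succ a ih =>
    show (Y.dec a w z (tapeOf y), Y.tlab a (tapeOf y)) = (mkT a (⟨w, z⟩ : Y.X0)
      (fun i => labT (10 * Y.t) Y.labOf (a + 1) L y i.castSucc),
      labT (10 * Y.t) Y.labOf (a + 1) L y (Fin.last a))
    rw [ih]
    have h2 : Y.tlab a (tapeOf y) = labT (10 * Y.t) Y.labOf (a + 1) L y (Fin.last a) := by
      unfold Lay.tlab labT
      congr 1
      funext j
      show ((tapeOf y (10 * Y.t * a + j) : ℕ) : ZMod Y.q) = ext y (10 * Y.t * a + j)
      unfold _root_.P313.H931.tapeOf ext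
      split_ifs
      · rw [ZMod.natCast_zmod_val]
      · simp
    rw [h2]
    rfl

theorem card_lab : Fintype.card (Y.Ec × Y.Sd) = Y.q ^ (10 * Y.t) := by
  simp only [Fintype.card_prod, Fintype.card_fun, Fintype.card_fin, ZMod.card]
  rw [← pow_mul, ← pow_add]
  congr 1
  ring

/-- **sums over tapes are sums over tokens**, concrete levels -/
theorem sum_dec {a L : ℕ} (hL : 10 * Y.t * a ≤ L) (w : Fin Y.n) (g : Y.X a → ℝ) :
    (∑ z : Fin (Y.q ^ Y.c w), ∑ y : Fin L → ZMod Y.q, g (Y.dec a w z (tapeOf y))) *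
        (Y.q : ℝ) ^ (10 * Y.t * a) =
      (Y.q : ℝ) ^ L * ∑ u : Y.X a, if Y.st a u = w then g u else 0 := by
  classical
  have h := sum_tapes (labOk (Y := Y)) hL (fun x : Y.X0 => x.1 = w) g
  have h1 : (Fintype.card (Y.Ec × Y.Sd) : ℝ) ^ a = (Y.q : ℝ) ^ (10 * Y.t * a) := by
    rw [card_lab]
    push_cast
    rw [← pow_mul]
  rw [h1] at h
  have h2 : ∑ x ∈ univ.filter (fun x : Y.X0 => x.1 = w), ∑ y : Fin L → ZMod Y.q,
      g (mkT a x (labT (10 * Y.t) Y.labOf a L y)) =
      ∑ z : Fin (Y.q ^ Y.c w), ∑ y : Fin L → ZMod Y.q, g (Y.dec a w z (tapeOf y)) := by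
    rw [Finset.sum_filter, Fintype.sum_sigma, Finset.sum_eq_single w]
    · refine Finset.sum_congr rfl fun z _ => ?_
      rw [if_pos rfl]
      refine Finset.sum_congr rfl fun y _ => ?_
      rw [dec_eq_mkT]
    · intro w' _ hw'
      refine Finset.sum_eq_zero fun z _ => ?_
      rw [if_neg hw']
    · intro h
      exact absurd (Finset.mem_univ w) h
  rw [h2] at h
  rw [h, Finset.sum_filter]
  congr 1
  refine Finset.sum_congr rfl fun u _ => ?_
  rw [st_eq_base]

end Vale.Agent.P313.H931
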