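import Vale.Agent.P313.H136.Loss

/-!
# Two-phase walks: the number of two-phase alive leaves is `two (Ts 1)` (MEAN)
-/

namespace Vale.Agent.P313.H931

open Finset Classical Vale.Agent.P313.H136 Vale.Agent.P313.H136.Sys

variable {V X Ec Sd : Type} (S : Sys V X Ec Sd) [AddCommGroup Ec]
  [Fintype X] [Fintype Ec] [Fintype Sd]

/-- two-phase alive leaves over `y` -/
noncomputable def lv2 (Lam : ℕ) (Z : Set V) (a : ℕ) (y : Tok X (Ec × Sd) (a + 1)) :
    Finset (Tok X (Ec × Sd) (a + 1)) :=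
  univ.filter fun u => S.U (a + 1) u = y ∧ S.al Lam Z a u.1 ∧
    S.al Lam Z a (S.R a (S.U a u.1, u.2)).1

theorem two_count (Lam : ℕ) (Z : Set V) (a : ℕ) (y : Tok X (Ec × Sd) (a + 1)) :
    ((lv2 S Lam Z a y).card : ℝ) = S.two Lam Z a (S.Ts Lam Z a fun _ => 1) y := by
  -- middle tokens
  have h1 : (lv2 S Lam Z a y).card =
      ∑ u' ∈ univ.filter (fun u' => S.U a u' = y.1 ∧ S.al Lam Z a u'),
        ((lv2 S Lam Z a y).filter fun u => (S.R a (S.U a u.1, u.2)).1 = u').card := by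
    refine Finset.card_eq_sum_card_fiberwise fun u hu => ?_
    rw [Finset.mem_coe] at hu
    obtain ⟨_, h2, h3, h4⟩ := mem_filter.1 hu
    rw [Finset.mem_coe, mem_filter]
    refine ⟨mem_univ _, ?_, h4⟩
    rw [← h2]
    rfl
  rw [h1]
  unfold two Ts
  push_cast
  refine Finset.sum_congr rfl fun u' hu' => ?_
  obtain ⟨_, hU, hal⟩ := mem_filter.1 hu'
  rw [Finset.sum_const, nsmul_eq_mul, mul_one]
  norm_cast
  refine Finset.card_bij' (fun u _ => u.1)
    (fun u1 _ => ((u1, (S.Ri a (u', y.2)).2) : Tok X (Ec × Sd) (a + 1))) ?_ ?_ ?_ ?_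
  · intro u hu
    obtain ⟨hu1, hu2⟩ := mem_filter.1 hu
    obtain ⟨_, h2, h3, h4⟩ := mem_filter.1 hu1
    rw [mem_filter]
    refine ⟨mem_univ _, ?_, h3⟩
    have e : S.R a (S.U a u.1, u.2) = (u', y.2) := by
      refine Prod.ext hu2 ?_
      rw [← h2]
      rfl
    rw [← e, S.Ri_R]
  · intro u1 hu1
    obtain ⟨_, h2, h3⟩ := mem_filter.1 hu1
    have e : S.R a (S.U a u1, (S.Ri a (u', y.2)).2) = (u', y.2) := by
      rw [h2]
      exact S.R_Ri a (u', y.2)
    refine mem_filter.2 ⟨mem_filter.2 ⟨mem_univ _, ?_, h3, ?_⟩, ?_⟩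
    · show (S.U a (S.R a (S.U a u1, (S.Ri a (u', y.2)).2)).1,
        (S.R a (S.U a u1, (S.Ri a (u', y.2)).2)).2) = y
      rw [e]
      exact Prod.ext hU rfl
    · show S.al Lam Z a (S.R a (S.U a u1, (S.Ri a (u', y.2)).2)).1
      rw [e]
      exact hal
    · show (S.R a (S.U a u1, (S.Ri a (u', y.2)).2)).1 = u'
      rw [e]
  · intro u hu
    obtain ⟨hu1, hu2⟩ := mem_filter.1 hu
    obtain ⟨_, h2, h3, h4⟩ := mem_filter.1 hu1
    have e : S.R a (S.U a u.1, u.2) = (u', y.2) := by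
      refine Prod.ext hu2 ?_
      rw [← h2]
      rfl
    have e2 : (S.Ri a (u', y.2)).2 = u.2 := by rw [← e, S.Ri_R]
    exact Prod.ext rfl e2
  · intro u1 _
    rfl

theorem two_count_le (Lam : ℕ) (Z : Set V) (a : ℕ) (y : Tok X (Ec × Sd) (a + 1)) :
    (lv2 S Lam Z a y).card ≤ Lam ^ 2 := by
  have h1 := two_count S Lam Z a y
  have h2 : S.two Lam Z a (S.Ts Lam Z a fun _ => 1) y ≤ (Lam : ℝ) * Lam := by
    unfold two
    calc ∑ u' ∈ univ.filter (fun u' => S.U a u' = y.1 ∧ S.al Lam Z a u'),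
        S.Ts Lam Z a (fun _ => (1 : ℝ)) (S.Ri a (u', y.2)).1 ≤
        ∑ _u' ∈ univ.filter (fun u' => S.U a u' = y.1 ∧ S.al Lam Z a u'), (Lam : ℝ) := by
          refine Finset.sum_le_sum fun u' _ => ?_
          unfold Ts
          rw [Finset.sum_const, nsmul_eq_mul, mul_one]
          exact card_al_le (S := S) (Lam := Lam) (Z := Z) (a := a) _
      _ = ((univ.filter (fun u' => S.U a u' = y.1 ∧ S.al Lam Z a u')).card : ℝ) * Lam := by
          rw [Finset.sum_const, nsmul_eq_mul]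
      _ ≤ (Lam : ℝ) * Lam := by
          exact mul_le_mul_of_nonneg_right (card_al_le (S := S) (Lam := Lam) (Z := Z) (a := a) _)
            (Nat.cast_nonneg _)
  rw [← h1, ← pow_two] at h2
  exact_mod_cast h2

end Vale.Agent.P313.H931
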